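import Vale.Agent.P235.C15.D0
import Vale.Agent.P235.C15.D1
import Vale.Agent.P235.C15.D2
import Vale.Agent.P235.C15.D3
import Vale.Agent.P235.C15.D4
import Vale.Agent.P235.C15.D5
import Vale.Agent.P235.C15.D6
import Vale.Agent.P235.C15.D7
import Vale.Agent.P235.C15.D8
import Vale.Agent.P235.C15.D9
import Vale.Agent.P235.C15.D10
import Vale.Agent.P235.C15.D11
import Vale.Agent.P235.C15.D12
import Vale.Agent.P235.C15.D13
import Vale.Agent.P235.C15.D14
import Vale.Agent.P235.C15.D15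
import Vale.Agent.P235.C15.D16
import Vale.Agent.P235.C15.D17
import Vale.Agent.P235.C15.D18
import Vale.Agent.P235.C15.D19
import Vale.Agent.P235.C15.D20
import Vale.Agent.P235.C15.D21
import Vale.Agent.P235.C15.D22
import Vale.Agent.P235.C15.D23
import Vale.Agent.P235.C15.D24
import Vale.Agent.P235.C15.D25
import Vale.Agent.P235.C15.D26
import Vale.Agent.P235.C15.D27
import Vale.Agent.P235.C15.D28
import Vale.Agent.P235.C15.D29
import Vale.Agent.P235.C15.D30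
import Vale.Agent.P235.C15.D31
import Vale.Agent.P235.C15.D32
import Vale.Agent.P235.C15.D33
import Vale.Agent.P235.C15.D34
import Vale.Agent.P235.C15.D35
import Vale.Agent.P235.C15.D36
import Vale.Agent.P235.C15.D37
import Vale.Agent.P235.C15.D38
import Vale.Agent.P235.C15.D39
import Vale.Agent.P235.C15.D40
import Vale.Agent.P235.C15.D41
import Vale.Agent.P235.C15.D42
import Vale.Agent.P235.C15.D43
import Vale.Agent.P235.C15.D44
import Vale.Agent.P235.C15.D45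
import Vale.Agent.P235.C15.D46
import Vale.Agent.P235.C15.D47
import Vale.Agent.P235.C15.D48
import Vale.Agent.P235.C15.D49
import Vale.Agent.P235.C15.D50
import Vale.Agent.P235.C15.D51
import Vale.Agent.P235.C15.D52
import Vale.Agent.P235.C15.D53
import Vale.Agent.P235.C15.D54
import Vale.Agent.P235.C15.D55
import Vale.Agent.P235.C15.D56
import Vale.Agent.P235.C15.D57
import Vale.Agent.P235.C15.D58
import Vale.Agent.P235.C15.D59
import Vale.Agent.P235.C15.D60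
import Vale.Agent.P235.C15.D61

namespace Vale.Agent.P235.C15

theorem hA : Closed (rootA (-1) 1) :=
(splC (h := [0, 0, 0, 1, -1, 0, 0, -1, 1]) (splC (h := [0, 0, 0, 0, -64, 0, -64, -33, 64]) (splC (h := [0, 32, 32, 0, -224, -64, -64, -33, 32, 32]) (splC (h := [0, 0, 0, 0, 62, -2, 64, 33, 0, -2]) (splC (h := [0, -64, -64, 0, -64, 2048, 1984, 1023]) q0
(wspC (b := 2) (by decide) q1
q2
(splC (h := [0, 0, 0, 0, 1984, 2048, -64, -33, 0, -64]) q3
(splC (h := [0, -1, -1, -32, -64, 32, 0, -32, 63]) q4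
q5))))
(splC (h := [0, 0, 0, 0, -2, 62, 64, 33, -2]) (splC (h := [0, 0, 0, 0, 1984, 2048, -64, -33, 0, -64]) q6
(splC (h := [0, -64, -64, 0, -64, 2048, 1984, 1023]) q7
(splC (h := [0, -1, -1, 31, -1, 32, 0, 31]) q8
(splC (h := [0, 0, 0, 0, -64, 0, -64, -33, 48]) q9
(wspC (b := 2) (by decide) q10
q11
q12)))))
q13))
(splC (h := [0, 32, 32, 0, -64, -224, -64, -33, 32, 32]) q14
(splC (h := [0, 1, 1, -31, 1, -32, 0, 32]) (splC (h := [0, 32, 32, -992, 32, -1024, 0, 961]) (splC (h := [0, 160, 160, -256, -344, -80, -672, -277, 168, 168]) (splC (h := [0, -1, -1, 31, -1, 32, 0, 31]) (splC (h := [0, 8, 8, 292, -19, 14, 0, -32, 9, 9]) q15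
(splC (h := [0, 0, 0, 1, 1, 0, 0, 1, -1]) (splC (h := [0, -13, -13, 160, -256, 416, 0, 160, 243]) (splC (h := [0, -13, -13, -155, 248, -403, 0, -155, -261, 819]) q16
q17)
q18)
q19))
q20)
(splC (h := [0, 0, 0, -5, 8]) (splC (h := [0, 26, 26, -1139, -307, -832, 0, 499, 333]) (splC (h := [0, -13, -13, 160, -256, 416, 0, 160, 243]) (splC (h := [0, 2080, 2080, 13460, 12316, -1040, -8736, 13187, -14604, 2184]) (splC (h := [0, -13, -13, -155, 248, -403, 0, -155, -261, 819]) (splC (h := [0, 520, 520, 5, -281, -260, 0, 5, -291, 546]) (splC (h := [63, -2, 61, -82, -20, -62, 0, -19, 18, 63]) q21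
q22)
q23)
(splC (h := [72, 72, 0, -400, -144, 0, 32, 81, 72]) q24
q25))
(splC (h := [0, 61, 61, -64, -128, -377, 0, -64, 63, 63]) q26
(splC (h := [-72, -72, 0, 400, 360, 0, -32, -81, -72]) (splC (h := [-8, -8, 0, 16, 16, 0, 0, 23, -8]) q27
(splC (h := [0, 0, 0, 5824, 0, 0, 2240, -3369]) (splC (h := [0, 0, 0, -1, 0, 2]) q28
q29)
q30))
(splC (h := [0, 0, 0, 88, 32, 0, 0, -32, 1]) (splC (h := [0, 0, 0, -7, 0, 8]) q31
(splC (h := [0, 0, 0, 1, 1, 0, 0, 1, -1]) q32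
q33))
q34))))
q35)
(splC (h := [0, 0, 0, 32, 16, 32, 0, -32, 0, -1]) (splC (h := [0, 0, 0, 48, 32, 32, 0, 0, -32, -1]) (splC (h := [-16, 0, -16, 112, 0, 92, 0, -15, 0, -16]) (splC (h := [0, 0, 0, -256, -32, -288, -64, 254, 32, 9]) q36
(splC (h := [-72, -72, 0, 400, 360, 0, -32, -81, -72]) q37
q38))
q39)
q40)
q41))
(splC (h := [0, 61, 61, -64, -443, -62, 0, -64, 63, 63]) q42
(splC (h := [0, 0, 0, -31, 97, 0, 0, 31, -31]) q43
q44))))
(splC (h := [0, 0, 0, 32, 88, 0, -32, -33]) q45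
(splC (h := [16, 0, 16, -112, 0, -32, 0, 15, 0, 16]) (splC (h := [256, 0, 256, -1792, -160, -512, 0, 245, -5, 256]) (splC (h := [0, 0, 0, 0, 8, 0, 0, -1]) (splC (h := [32, 0, 32, -224, -160, -64, 0, 70, -5, 32]) (splC (h := [-16, 0, -16, 112, 0, 92, 0, -15, 0, -16]) q46
(splC (h := [0, 0, 0, -32, -32, 0, -32, 31]) (splC (h := [16, 16, 0, -48, -64, 0, -96, 15, 16]) q47
(splC (h := [1632, 1632, 0, 10816, 224, 0, -6528, -5120, 1741]) q48
q49))
q50))
(splC (h := [0, 0, 0, 1088, -992, 32, 0, -32, 0, -1]) (splC (h := [0, 0, 0, -7, 0, 8]) (splC (h := [1632, 0, 1632, 22432, 7712, -3264, -6528, -9344, 241, 1632]) (splC (h := [192, 192, 0, 1664, -32, 0, -768, -760, 203]) q51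
q52)
q53)
q54)
q55))
q56)
(splC (h := [0, 0, 0, -7, 0, 8]) q57
q58))
q59)))
(splC (h := [0, 0, 0, 0, 8, 0, 0, -1]) (splC (h := [0, 0, 0, 32, 88, 0, -32, -33]) q60
(splC (h := [32, 0, 32, -224, -160, -64, 0, 70, -5, 32]) (splC (h := [16, 0, 16, -112, 0, -32, 0, 15, 0, 16]) (splC (h := [256, 0, 256, -1792, -160, -512, 0, 245, -5, 256]) (splC (h := [-16, 0, -16, 112, 0, 92, 0, -15, 0, -16]) q61
q62)
(splC (h := [0, 0, 0, 4, -7]) (splC (h := [2720, 0, 2720, -3648, 3584, -6368, 0, -1792, 0, 2691]) (splC (h := [0, 0, 0, -352, 2016, -352, 0, 352, 0, -11]) q63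
q64)
q65)
q66))
q67)
(splC (h := [0, 0, 0, -7, 0, 8]) (splC (h := [0, 0, 0, 5824, -1152, 0, 3392, -3333, -36]) q68
q69)
q70)))
q71))))
(splC (h := [0, 0, 0, 33, 1, -32, 0, 0, 1, -1]) (splC (h := [-64, -64, 0, -89, -569, -480, 0, -64, 647, -15]) (splC (h := [-64, -64, 0, -111, 113, 224, 0, 640, -79, 7]) (splC (h := [576, 576, 0, 9645, -1523, 11360, -2816, 576, 205, 355]) (splC (h := [-64, 288, 352, -89, -569, -2944, 0, -64, 295, 337]) (splC (h := [0, 0, 0, 31, -1, 32, 0, 0, -1, 1]) (splC (h := [64, 64, 0, 89, -135, -224, 0, 64, 57, -7]) (splC (h := [576, -128, 704, 9645, -115, 9952, -2816, 576, -499, 1059]) (splC (h := [16, 16, 0, -63, -31, 32, 0, 16, 17, 1]) (splC (h := [1984, 1280, -704, 2759, -4889, 37408, 0, 1984, 1767, 465]) q72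
(splC (h := [-64, -64, 0, -89, 21959, 22048, 0, -64, -57, -719]) q73
(wspC (b := 2) (by decide) q74
(splC (h := [2184, 2080, -104, 7916, -4148, 12064, 0, -820, 1860, -273]) (splC (h := [0, 26, 26, -1139, -307, -832, 0, 499, 333]) q75
q76)
q77)
q78)))
(splC (h := [0, 0, 0, 16, -16, 32, 0, -16, 16, -1]) (splC (h := [0, 0, 0, 16, -16, -32, 0, -16, 16, -1]) q79
(splC (h := [0, 0, 0, -64, -64, 0, 0, 33, 64]) (splC (h := [0, -64, -64, 1984, -64, 2048, 0, -1023]) q80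
q81)
(splC (h := [0, 0, 0, 104, 144, 0, -32, 111, -144]) q82
(splC (h := [-72, -72, 0, 32, 288, -32, 0, 40, -72, -1]) (splC (h := [279, 243, -36, 302, -594, 1408, 0, -581, 279, 8]) q83
q84)
q85))))
q86))
q87)
(splC (h := [64, 64, 0, 89, -135, 480, -704, 42, 57, 15]) (splC (h := [576, -128, 704, 9645, -115, 9952, -2816, 576, -499, 1059]) (splC (h := [576, 576, 0, -1267, -1171, 96, 0, 576, 557, 3]) (splC (h := [488, 576, -88, 97, -1215, 4320, 0, 576, 513, 47]) q88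
(splC (h := [0, 0, 0, -33, 31]) (splC (h := [17283, 15593, 1690, 211182, -31186, -54080, -37056, -110050, 15593]) q89
q90)
q91))
(splC (h := [56, 64, -8, 256, 160, 256, 160, 69, -224]) (splC (h := [0, 64, 64, 0, -32, -128, -352, -11, -32, 64]) q92
q93)
q94))
q95)
(splC (h := [0, 0, 0, 0, -32, 0, -32, -1, 32]) (splC (h := [0, 32, 32, 0, -32, -224, -32, -1, 0, 32]) (splC (h := [56, 64, -8, 256, 160, 256, 160, 69, -224]) q96
(splC (h := [546, 520, -26, 47, -785, 832, 0, 47, 213]) (splC (h := [2184, 2080, -104, 7916, -4148, 12064, 0, -820, 1860, -273]) q97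
q98)
q99))
q100)
(splC (h := [0, 0, 0, -1, 0, 2]) q101
(splC (h := [0, 0, 0, 104, 144, 0, -32, 111, -144]) q102
(splC (h := [0, 0, 0, 1792, 0, 2016, 224, -921, 0, -63]) (splC (h := [0, 0, 0, -3, 4]) (splC (h := [0, 0, 0, -2240, -2016, 0, 224, 1383, 2016]) (splC (h := [0, 0, 0, -2240, 62496, 64512, 224, 1383, 0, -2016]) q103
(splC (h := [0, -672, -672, 18368, -672, 21504, 2464, -9363]) q104
q105))
(splC (h := [72, 72, 0, 80, -144, 288, 64, -150, 72, -9]) q106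
q107))
q108)
(splC (h := [0, 0, 0, -33, 31]) q109
(splC (h := [31, 24, -7, 155, -69, 224, 0, 31, 31]) q110
(wspC (b := 2) (by decide) q111
q112
q113)))))))))
q114)
(splC (h := [0, 0, 0, 32, 88, 0, -32, -33]) q115
(splC (h := [-64, 288, 352, -89, -2329, -1184, 0, -64, 295, 337]) q116
(splC (h := [0, 0, 0, -1, 2, 0, 0, 1, -1]) q117
(splC (h := [54, -205, -151, -108, 1435, 728, 32, 55, -205, -151]) (splC (h := [0, 0, 0, -1, 0, 2]) q118
q119)
q120)))))
(splC (h := [0, 0, 0, 80, -144, 288, 64, -78, 144, -9]) q121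
q122))
(splC (h := [0, 0, 0, 16, -16, -32, 0, -16, 16, -1]) (splC (h := [0, 8, 8, -12, -4, -48, 0, 12, -4, 7]) (splC (h := [0, -2, -2, 31, -33, 64, 0, -31, 31]) q123
(splC (h := [0, 0, 0, -1, 63, 64, 0, 1, -1, -2]) q124
(wspC (b := 2) (by decide) q125
(splC (h := [0, 26, 26, -1139, -307, -832, 0, 499, 333]) q126
q127)
q128)))
q129)
(splC (h := [0, 0, 0, 0, -32, 0, -32, -1, 32]) (splC (h := [56, 64, -8, 256, 160, 256, 160, 69, -224]) (splC (h := [0, 32, 32, 0, -32, -224, -32, -1, 0, 32]) (splC (h := [0, 0, 0, 0, 2016, 2048, -32, -1, -32, -64]) q130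
q131)
(splC (h := [0, 0, 0, -1, 0, 2]) (splC (h := [0, 0, 0, 512, 0, 0, 64, -231]) (splC (h := [0, 0, 0, 5824, 0, -1152, 3392, -3333, 0, -36]) q132
q133)
q134)
q135))
(splC (h := [697, 651, 46, 9578, -1302, -1472, 0, -5332, 651]) q136
q137))
(splC (h := [0, 0, 0, -3, 4]) (splC (h := [0, 0, 0, 7, 0, 0, 0, -4]) (splC (h := [0, 0, 0, -2240, -2016, 0, 224, 1383, 2016]) (splC (h := [0, 0, 0, 1792, 0, 2016, 224, -921, 0, -63]) (splC (h := [0, 0, 0, -2240, 62496, 64512, 224, 1383, 0, -2016]) q138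
q139)
(splC (h := [0, 0, 0, -33, 31]) q140
(wspC (b := 2) (by decide) q141
(splC (h := [0, 26, 26, -1139, -307, -832, 0, 499, 333]) (splC (h := [0, -13, -13, 160, -256, 416, 0, 160, 243]) (splC (h := [-819, 403, -416, 5120, -8192, 13312, 0, 4301, 8595]) q142
q143)
q144)
q145)
q146)))
(splC (h := [72, 72, 0, 80, -144, 288, 64, -150, 72, -9]) (splC (h := [-1, -1, 0, -2, 126, 128, 0, 3, -1, -4]) q147
(splC (h := [279, 243, -36, 302, -594, 1152, 256, -573, 279]) q148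
(splC (h := [-1009, -1069, -60, 3810, 1890, 1920, 0, -1009, -941]) q149
q150)))
(splC (h := [-33, -33, 0, 128, 64, 64, 0, -33, -31, -2]) (splC (h := [-33, -33, 0, 66, 130, 64, 0, -33, -31, -2]) (wspC (b := 2) (by decide) q151
q152
q153)
q154)
(splC (h := [-80, -80, 0, 160, 320, 160, 0, -80, -176, -5]) q155
(splC (h := [-33, -33, 0, 130, 66, 64, 0, -31, -33, -2]) (splC (h := [-33, -33, 0, 64, 128, 64, 0, -31, -33, -2]) q156
(wspC (b := 2) (by decide) q157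
q158
q159))
(splC (h := [0, 0, 0, -33, 31]) q160
(wspC (b := 2) (by decide) q161
q162
q163)))))))
q164)
q165))))
(splC (h := [0, 0, 0, -224, 0, 0, -64, 231]) (splC (h := [0, 0, 0, 32, 0, 144, -32, -33]) (splC (h := [0, 0, 0, -448, -576, 0, -128, 165, 576]) (splC (h := [0, 0, 0, 64, 0, 64, 0, -33, 0, -2]) (splC (h := [0, 0, 0, 512, 0, 0, 64, -231]) (splC (h := [0, -576, -576, 17984, -576, 18432, -128, -9339]) q166
q167)
q168)
(splC (h := [0, 0, 0, 0, -32, 0, -32, -1, 32]) q169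
(splC (h := [0, 0, 0, 32, 72, 0, -32, -33]) q170
q171)))
(splC (h := [0, 0, 0, 32, 72, 0, -32, -33]) q172
(splC (h := [0, 0, 0, 1024, 2048, 1024, 0, -1024, -33, -32]) q173
q174)))
(splC (h := [0, 0, 0, 32, 32, 32, 0, -32, 0, -1]) (splC (h := [128, 128, 0, -32, -256, -352, 0, -96, 128, 7]) (splC (h := [-16, -16, 0, 32, 32, 32, 0, 16, -16, -1]) q175
(splC (h := [2184, 2080, -104, 7916, -4148, 12064, 0, -820, 1860, -273]) (splC (h := [0, -13, -13, 160, -256, 416, 0, 160, 243]) q176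
q177)
q178))
q179)
(splC (h := [64, 64, 0, -96, 0, 96, 0, 32, 0, -3]) (splC (h := [192, 192, 0, -416, 640, 1056, 0, 224, -128, -33]) (splC (h := [0, 0, 0, -1, 2, 0, 0, 1, -1]) q180
q181)
(splC (h := [0, 0, 0, 64, 0, 64, 0, -33, 0, -2]) q182
(splC (h := [0, 0, 0, 31, -33]) q183
(splC (h := [65, 69, 4, -254, -126, -128, 0, 65, 65]) (splC (h := [715, 759, 44, 9558, -1386, -1408, 0, -5654, 715]) (splC (h := [31, 24, -7, 155, -69, 224, 0, 31, 31]) q184
q185)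
q186)
q187))))
(splC (h := [0, 0, 0, 33, -31]) (splC (h := [-326, -326, 0, -522, -458, 64, 0, 848, 553, -2]) q188
q189)
q190))))
(splC (h := [0, 0, 0, -3, 4]) (splC (h := [0, 0, 0, -2240, -2016, 0, 224, 1383, 2016]) (splC (h := [0, 0, 0, 1792, 0, 2016, 224, -921, 0, -63]) q191
(splC (h := [546, 520, -26, 47, -785, 832, 0, 47, 213]) (splC (h := [0, -13, -13, 160, -256, 416, 0, 160, 243]) (splC (h := [0, 26, 26, -1139, -307, -832, 0, 499, 333]) (splC (h := [2184, 2080, -104, 7916, -4148, 12064, 0, -820, 1860, -273]) q192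
(splC (h := [0, 0, 0, -33, 31]) q193
(splC (h := [33, 33, 0, -64, -128, -64, 0, 31, 33, 2]) (splC (h := [-163, -163, 0, -261, 18523, 18784, 0, 424, -163, -587]) q194
(splC (h := [0, 0, 0, -7, 8]) (splC (h := [64, 49, -15, 320, -160, 480, 0, 64, 81]) q195
q196)
q197))
q198)))
q199)
(splC (h := [-80, -80, 0, 160, 320, 160, 0, -80, -176, -5]) q200
(splC (h := [0, 0, 0, -33, 31]) q201
q202)))
(splC (h := [-80, -80, 0, 160, 320, 160, 0, -80, -176, -5]) q203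
(splC (h := [0, 0, 0, -31, 33]) (splC (h := [0, 0, 0, -33, 31]) q204
(splC (h := [31, 24, -7, 155, -69, 224, 0, 31, 31]) q205
(splC (h := [33, 33, 0, -64, -128, -64, 0, 31, 33, 2]) (splC (h := [-163, -163, 0, -261, 18523, 18784, 0, 424, -163, -587]) q206
q207)
q208)))
q209))))
(splC (h := [72, 72, 0, 80, -144, 288, 64, -150, 72, -9]) (splC (h := [64, 64, 0, 96, -128, -32, 32, -159, 64, -1]) (splC (h := [-1, -1, 0, -2, 126, 128, 0, 3, -1, -4]) q210
(splC (h := [63, 67, 4, -126, 2, -128, 0, 63, -61]) (splC (h := [-8, -9, -1, 16, 48, 32, 0, -8, -8]) q211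
q212)
q213))
q214)
(splC (h := [1, 1, 0, -2, 126, 128, 0, 1, -3, -4]) (splC (h := [-33, -33, 0, 130, 66, 64, 0, -31, -33, -2]) (splC (h := [-33, -33, 0, 64, 128, 64, 0, -31, -33, -2]) (splC (h := [128, 128, 0, -32, -256, -352, 0, -96, 128, 7]) q215
q216)
q217)
(splC (h := [0, 0, 0, -33, 31]) q218
(splC (h := [-163, -163, 0, -261, 18523, 18784, 0, 424, -163, -587]) (splC (h := [31, 31, 0, 18683, 155, 18976, 0, -548, 31, -593]) q219
q220)
q221)))
(splC (h := [0, 1, 1, -16, -48, -32, 0, 16, 16]) (splC (h := [0, 0, 0, 31, -33]) q222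
(splC (h := [31, 24, -7, 155, -69, 224, 0, 31, 31]) q223
q224))
q225))))
(splC (h := [0, 0, 0, 32, 112, 0, 0, 112, -145]) (splC (h := [0, 0, 0, 32, 112, 0, 0, -32, -1]) q226
q227)
(splC (h := [0, 0, 0, -1, 4]) (splC (h := [0, 0, 0, -1, 0, 2]) q228
(splC (h := [0, 0, 0, 32, 72, 0, -32, -33]) (splC (h := [0, 0, 0, 80, -144, 288, 64, -78, 144, -9]) (splC (h := [0, 0, 0, 104, 144, 0, -32, 111, -144]) q229
(splC (h := [0, 0, 0, 16, -48, 0, 0, -16, 15]) q230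
(splC (h := [-936, -936, 0, 2288, 1872, 0, -416, 75, -936]) (splC (h := [-936, -936, 0, 848, 4176, 0, -416, 75, -936]) q231
q232)
q233)))
q234)
q235))
q236)))))
(splC (h := [0, 32, 32, 0, -192, -64, -32, -1, 0, 32]) (splC (h := [0, 0, 0, 0, -32, 0, -32, -1, 32]) (splC (h := [64, 0, 64, 2048, 1184, -128, 800, 97, -1184, 64]) (splC (h := [64, 64, 0, 2048, 1056, 0, 800, 97, -1120]) (splC (h := [56, 64, -8, 256, 160, 256, 160, 69, -224]) (splC (h := [0, 0, 0, 0, 2016, 2048, -32, -1, -32, -64]) q237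
(splC (h := [0, -64, -64, 0, -1056, 2048, 992, 31, 992]) q238
(splC (h := [63, 68, 5, 315, 475, -160, 0, 63, -533]) (splC (h := [64, 49, -15, 320, -160, 480, 0, 64, 81]) q239
(wspC (b := 2) (by decide) q240
q241
q242))
(wspC (b := 2) (by decide) q243
q244
(splC (h := [31, 24, -7, 155, -69, 224, 0, 31, 31]) q245
q246)))))
(splC (h := [2184, 2080, -104, 7916, -4148, 12064, 0, -820, 1860, -273]) (splC (h := [0, 0, 0, -5, 8]) (splC (h := [546, 520, -26, 47, -785, 832, 0, 47, 213]) q247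
(splC (h := [4, 0, 4, 317, 0, -128, 0, -124]) (splC (h := [-468, -508, 40, -513, 1016, -1280, 0, 1808, -508]) q248
q249)
q250))
q251)
(splC (h := [4, 0, 4, 317, 0, -128, 0, -124]) (splC (h := [-468, -508, 40, -513, 1016, -1280, 0, 1808, -508]) (splC (h := [468, 508, -40, 513, -127, 1280, 0, -1808, 508]) q252
q253)
q254)
q255)))
(splC (h := [0, 1, 1, -31, 1, -32, 0, 32]) (splC (h := [0, -1, -1, -32, -64, 32, 0, -32, 63]) q256
q257)
q258))
(splC (h := [0, 1, 1, -31, 1, -32, 0, 32]) q259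
q260))
(splC (h := [0, 0, 0, -1, 4]) (splC (h := [0, 0, 0, -1, 0, 2]) (splC (h := [0, 0, 0, -32, -72, 0, -40, 33, 72]) (splC (h := [0, 0, 0, 128, 0, 96, -32, -33, 0, -3]) q261
(splC (h := [0, 0, 0, -33, 31]) q262
(splC (h := [7936, 7936, 0, 47968, 20928, -27040, 0, -55904, 7350, 845]) (splC (h := [992, 992, 0, 7168, 4960, -2208, 0, -8160, 992, 69]) (splC (h := [-2112, -2112, 0, -5280, 8192, -5280, 0, 7392, -2112, 165]) (splC (h := [31, 31, 0, -69, 155, 224, 0, 38, 31, -7]) (splC (h := [33, 33, 0, -64, -128, -64, 0, 31, 33, 2]) (splC (h := [-13792, -13792, 0, -39168, 62304, -48544, -18752, 52374, -13792, 1517]) (splC (h := [829, 243, -586, -2469, 4731, 7200, 0, 1640, 829, 361]) q263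
(splC (h := [2184, 2080, -104, 7916, -4148, 12064, 0, -820, 1860, -273]) q264
q265))
q266)
q267)
q268)
q269)
q270)
q271)))
(splC (h := [0, 0, 0, -5, 8]) (splC (h := [0, 0, 0, -4160, -3744, 0, 416, 2733, 3744]) (splC (h := [0, 0, 0, 3328, 0, 3744, 416, -1875, 0, -117]) q272
(splC (h := [-80, -80, 0, 160, 320, 160, 0, -80, -176, -5]) q273
(splC (h := [-8, -9, -1, 16, 48, 32, 0, -8, -8]) (splC (h := [-8, -9, -1, 47, 15, 32, 0, -8, -8]) q274
(splC (h := [64, 49, -15, 320, -160, 480, 0, 64, 81]) q275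
(splC (h := [0, 0, 0, -33, 31]) q276
(splC (h := [69, 65, 4, -126, -254, -128, 0, 65, 65]) (splC (h := [759, 715, 44, -1386, 9558, -1408, 0, 715, -5654]) (splC (h := [24, 31, -7, -69, 155, 224, 0, 31, 31]) q277
q278)
q279)
q280))))
(splC (h := [0, 0, 0, 1088, -992, 32, 0, -32, 0, -1]) (splC (h := [0, 0, 0, -1, 31, 32, 0, 1, 0, -1]) q281
q282)
(splC (h := [64, 49, -15, 320, -160, 480, 0, 64, 81]) q283
q284)))))
(splC (h := [0, 0, 0, 104, 144, 0, -32, 111, -144]) (splC (h := [0, 0, 0, 80, -144, 288, 64, -78, 144, -9]) q285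
(splC (h := [-33, -33, 0, 130, 66, 64, 0, -31, -33, -2]) (splC (h := [-33, -33, 0, 64, 128, 64, 0, -31, -33, -2]) (splC (h := [1, 1, 0, 126, -2, 128, 0, -3, 1, -4]) q286
(splC (h := [-2, 0, -2, -33, -33, 0, 0, 31, 33, 2]) (splC (h := [27, 31, -4, -66, -66, 0, 0, 31, 35, 4]) q287
q288)
q289))
(splC (h := [31, 31, 0, -69, 155, 224, 0, 38, 31, -7]) (splC (h := [-163, -163, 0, -261, 18523, 18784, 0, 424, -163, -587]) q290
q291)
q292))
(splC (h := [-80, -80, 0, 160, 320, 160, 0, -80, -176, -5]) q293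
(splC (h := [0, 0, 0, -33, 31]) q294
(splC (h := [31, 31, 0, -69, 155, 224, 0, 38, 31, -7]) (splC (h := [829, 243, -586, -2469, 4731, 7200, 0, 1640, 829, 361]) q295
(splC (h := [0, 0, 0, 31, -33]) q296
q297))
q298)))))
(splC (h := [72, 72, 0, 80, -144, 288, 64, -150, 72, -9]) (splC (h := [-1, -1, 0, -2, 126, 128, 0, 3, -1, -4]) q299
(splC (h := [279, 243, -36, 302, -594, 1152, 256, -573, 279]) q300
(splC (h := [-195, -207, -12, 762, 378, 384, 0, -311, -195]) q301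
q302)))
(splC (h := [-80, -80, 0, 160, 320, 160, 0, -80, -176, -5]) q303
(splC (h := [-33, -33, 0, 130, 66, 64, 0, -31, -33, -2]) (splC (h := [-33, -33, 0, 64, 128, 64, 0, -31, -33, -2]) q304
(splC (h := [-8, -9, -1, 16, 48, 32, 0, -8, -8]) q305
q306))
(splC (h := [0, 0, 0, -33, 31]) q307
(splC (h := [31, 24, -7, 155, -69, 224, 0, 31, 31]) (splC (h := [0, 0, 0, -31, 33]) q308
q309)
q310)))))))
(splC (h := [0, 0, 0, 32, 112, 0, 0, 112, -145]) (splC (h := [0, 0, 0, -32, 32, 0, 0, 32, 1]) (splC (h := [0, 0, 0, 80, -80, 288, 0, -80, 146, -9]) q311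
(splC (h := [0, 0, 0, -32, -128, -96, 0, 32, 64, 3]) (splC (h := [64, 64, 0, -96, 0, 96, 0, 32, 0, -3]) q312
q313)
q314))
q315)
q316)))
(splC (h := [64, 49, -15, 320, -160, 480, 0, 64, 81]) (splC (h := [0, 0, 0, -7, 8]) (splC (h := [63, 68, 5, 315, 475, -160, 0, 63, -533]) (splC (h := [1009, 1069, 60, -3810, -1890, -1920, 0, 1009, 941]) q317
(splC (h := [503, 539, 36, -1006, -110, -1152, -256, 495, -357]) q318
q319))
(splC (h := [0, 0, 0, -33, 31]) q320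
q321))
(splC (h := [0, 1, 1, -16, -48, -32, 0, 16, 16]) (splC (h := [0, 0, 0, -31, 97, 0, 0, 31, -31]) (splC (h := [0, 128, 128, -15593, 36759, -4096, 0, 15593, -11749]) q322
(splC (h := [0, 0, 0, -64, -32, 192, 0, 64, -1]) q323
q324))
(splC (h := [0, 0, 0, -7456, -128, -7456, 0, 7456, -66, 233]) (splC (h := [0, 0, 0, 32, 64, 32, 0, -32, 0, -1]) (splC (h := [0, 0, 0, -1, 31, 32, 0, 1, 0, -1]) q325
(splC (h := [0, 0, 0, 64, -64, 0, 0, -33, -2]) q326
(splC (h := [-2112, -2112, 0, -5280, 8192, -5280, 0, 7392, -2112, 165]) q327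
q328)))
q329)
(splC (h := [0, 0, 0, -32, 32, 0, 0, 32, 1]) (splC (h := [0, 0, 0, -64, -32, 192, 0, 64, -1]) (splC (h := [0, 0, 0, -160, -320, -192, 0, 160, 287]) (splC (h := [0, 0, 0, 224, -32, 480, 0, -224, -1, -9]) q330
q331)
q332)
q333)
q334)))
(splC (h := [0, 0, 0, 104, 144, 0, -32, 111, -144]) q335
q336)))
(splC (h := [0, 0, 0, -33, 31]) (splC (h := [69, 65, 4, -258, -130, -128, 0, 65, 65]) q337
q338)
(splC (h := [-163, -163, 0, -261, 18523, 18784, 0, 424, -163, -587]) (splC (h := [33, 33, 0, -64, -128, -64, 0, 31, 33, 2]) (splC (h := [-2112, -2112, 0, -5280, 8192, -5280, 0, 7392, -2112, 165]) (wspC (b := 2) (by decide) q339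
q340
q341)
q342)
q343)
q344))))
(splC (h := [0, 0, 0, -448, -576, 0, -128, 165, 576]) q345
q346)))
(splC (h := [0, 3264, 3264, 54016, -2464, -6528, 0, -26912, 3391, 3264]) (splC (h := [0, 0, 0, 3392, -4256, 0, 0, -2272, 3233]) (splC (h := [0, 0, 0, -1600, 160, 0, 0, 928, 5]) (splC (h := [0, 0, 0, 512, -160, 0, 0, 160, -5]) (splC (h := [1632, 0, 1632, 22432, 7712, -3264, -6528, -9344, 241, 1632]) (splC (h := [1088, 1088, 0, 1920, -2912, 0, 0, -1440, 1065]) (splC (h := [0, 0, 0, -7, 0, 8]) (splC (h := [544, 0, 544, -32, -160, -1088, 0, -384, -5, 544]) (splC (h := [0, 1088, 1088, 4096, -2912, -2176, 0, -2528, 1065, 1088]) (splC (h := [1632, 1632, 0, -448, -3872, 0, 0, -1024, 1613]) (splC (h := [192, 192, 0, 1664, -32, 0, -768, -760, 203]) (splC (h := [0, 192, 192, 2048, -32, -384, -768, -952, 203, 192]) q347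
(splC (h := [0, 192, 192, 2048, -800, -384, 0, -928, 179, 192]) q348
(splC (h := [0, 0, 0, 32, 112, 0, 0, 112, -145]) q349
(splC (h := [0, 0, 0, 0, -33, 31]) (splC (h := [-6336, 8448, -14784, 4224, 69696, 29568, -22048, -5969, 8448, -14784]) q350
q351)
q352))))
(splC (h := [1632, 1632, 0, 10816, 224, 0, -6528, -5120, 1741]) q353
(splC (h := [0, 0, 0, 32, 112, 0, 0, 112, -145]) q354
(splC (h := [-72, -72, 0, 400, 360, 0, -32, -81, -72]) q355
q356))))
q357)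
q358)
q359)
q360)
q361)
q362)
q363)
q364)
(splC (h := [0, 0, 0, 104, 144, 0, -32, 111, -144]) q365
(splC (h := [0, 0, 0, -32, -72, 0, -40, 33, 72]) (splC (h := [0, 0, 0, 128, 0, 96, -32, -33, 0, -3]) (splC (h := [0, 0, 0, -1, 0, 2]) q366
(splC (h := [0, 26, 26, -1139, -307, -832, 0, 499, 333]) q367
q368))
q369)
q370)))
(splC (h := [0, 26, 26, -1139, -307, -832, 0, 499, 333]) q371
(splC (h := [0, 0, 0, 32, 88, 0, -32, -33]) q372
(splC (h := [0, 544, 544, 4064, -3072, -1088, 0, -1824, 567, 544]) (splC (h := [1632, 0, 1632, 22432, 7712, -3264, -6528, -9344, 241, 1632]) (splC (h := [1632, 1632, 0, 11744, -8192, 0, 0, -4864, 1733]) q373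
q374)
q375)
(splC (h := [32, 0, 32, -224, -160, -64, 0, 70, -5, 32]) q376
q377))))))))
(splC (h := [0, 0, 0, -64, -64, 0, 0, 64, -33]) (splC (h := [32, 0, 32, -96, -64, -64, -128, 32, -33, 32]) (splC (h := [0, 0, 0, 0, -64, -64, 0, 0, -33, 64]) (splC (h := [3, 0, 3, -4, 0, -4]) (splC (h := [-64, 0, -64, -64, 1984, 2048, 0, 0, 1023]) (splC (h := [-64, 0, -64, 2048, 1984, -64, 0, 0, 1023]) q378
(wspC (b := 0) (by decide) (splC (h := [0, 0, 0, 2048, -64, 1984, 0, -64, -33]) q379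
(splC (h := [0, 0, 0, 0, -64, -64, 0, 0, -33, 48]) q380
(splC (h := [4, 4, 0, -128, -188, -60, 0, 0, 68, 45]) q381
q382)))
q383
(splC (h := [0, 0, 0, 2048, -64, 1984, 0, -64, -33]) q384
(splC (h := [-1, 0, -1, 32, -32, -64, 0, 0, -32, 63]) q385
q386))))
(splC (h := [0, 0, 0, -64, -64, 0, 0, 48, -33]) (splC (h := [0, 0, 0, 2048, -64, 1984, 0, -64, -33]) q387
(wspC (b := 0) (by decide) q388
q389
(splC (h := [-64, 0, -64, 2048, 1984, -64, 0, 0, 1023]) q390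
q391)))
(splC (h := [0, 0, 0, 1984, -64, 2048, 0, 0, -33, -64]) q392
(wspC (b := 2) (by decide) q393
(splC (h := [0, 0, 0, -1984, 1120, -992, 0, 0, -64, 31]) q394
(splC (h := [0, -2, -2, 1023, 31, 1120, 0, 0, 29, -33]) q395
(splC (h := [-1, 0, -1, -1, 31, 32, 0, 0, 31]) q396
q397)))
q398))))
q399)
(splC (h := [0, 0, 0, 0, 16, -16, -32, -1, -16, 16]) (splC (h := [-2, 0, -2, 64, 31, -33, 0, 0, -31, 31]) q400
(splC (h := [0, 0, 0, 64, -1, 63, 0, -2, 1, -1]) q401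
(splC (h := [0, 0, 0, 0, -32, 0, -32, -1, 32]) q402
(splC (h := [0, 0, 0, 0, 32, 112, 0, 0, 112, -145]) q403
(splC (h := [0, 0, 0, 0, -2, -2, 0, 0, 2, 1]) q404
(splC (h := [0, 0, 0, 32, -1, 31, 0, -1, 1]) q405
(splC (h := [1, 8, 9, -32, -47, -31, 0, 0, 39, 8]) (splC (h := [-4, -32, -36, 128, 157, 93, 0, 0, -32, -32]) q406
q407)
(splC (h := [-5, -126, -131, 160, 63, -97, 0, 0, 63, 218]) (splC (h := [1, 63, 64, -32, 63, 95, 0, 0, 63, -157]) q408
q409)
(splC (h := [-28, -199, -227, 896, 1266, 370, 0, 0, -299, -199]) q410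
(splC (h := [11, 63, 74, -352, 315, 667, 0, 0, 63, -719]) q411
q412))))))))))
(splC (h := [0, 64, 64, 0, -32, -128, -352, -11, -32, 64]) (splC (h := [0, 0, 0, 0, -32, 0, -32, -1, 32]) q413
(splC (h := [-5, -126, -131, 160, 63, -97, 0, 0, 63, 218]) q414
q415))
(splC (h := [0, 0, 0, 0, 32, 112, 0, 0, -32, -1]) (splC (h := [0, 0, 0, 0, 32, 112, 0, 0, 112, -145]) (splC (h := [0, 0, 0, 288, 80, -80, 0, -9, -80, 146]) q416
(splC (h := [-1, -8, -9, 32, 16, 0, 0, 0, -8, 23]) (splC (h := [1, 8, 9, -32, -47, -31, 0, 0, 39, 8]) (splC (h := [-4, -32, -36, 128, 157, 93, 0, 0, -32, -32]) q417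
(splC (h := [2, 16, 18, -64, -63, -63, 0, 0, 16, 16]) (splC (h := [-1, -8, -9, 32, 4, 4, 0, 0, 47, -8]) q418
(splC (h := [0, 0, 0, 0, -7, 8]) (splC (h := [0, 0, 0, -480, -704, -224, 0, 15, 256, 224]) (splC (h := [0, 320, 320, 480, 64, -416, 0, -15, 64, 96]) (splC (h := [0, 960, 960, 5280, 3904, -1376, 0, -165, 64, 416]) q419
(splC (h := [0, 0, 0, 0, -33, 31]) q420
q421))
q422)
q423)
q424))
q425))
q426)
(splC (h := [0, 0, 0, 576, 0, -320, 0, -18, 0, 297]) q427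
(splC (h := [0, 0, 0, 0, 31, -33]) (splC (h := [4, 65, 69, -128, 449, 321, 0, 0, -514, 65]) q428
q429)
(splC (h := [2, 16, 18, -64, -63, -63, 0, 0, 16, 16]) (splC (h := [-1, -8, -9, 32, 4, 4, 0, 0, 47, -8]) (splC (h := [-1, -8, -9, 32, 4, 4, 0, 0, -8, 47]) (splC (h := [32, 256, 288, 736, -128, -128, 0, -55, 256, 256]) (splC (h := [-6, 62, 56, 192, -31, -31, 0, 0, 62, 62]) (splC (h := [-24, 248, 224, 2528, 756, 756, 0, -55, 248, 248]) q430
q431)
q432)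
q433)
(splC (h := [-7, 31, 24, 224, 155, -69, 0, 0, 31, 31]) q434
q435))
(splC (h := [0, 0, 0, -480, -704, -224, 0, 15, 256, 224]) (splC (h := [0, 960, 960, 5280, 3904, -1376, 0, -165, 64, 416]) (splC (h := [0, 0, 0, 31200, 224, 30464, 0, -975, 224, -704]) q436
q437)
q438)
q439))
(splC (h := [4, 65, 69, -128, -254, -126, 0, 0, 65, 65]) (splC (h := [-7, 31, 24, 224, 155, -69, 0, 0, 31, 31]) (splC (h := [356, 1153, 1509, 7136, 5186, -1950, 0, -579, 574, 1153]) (splC (h := [-230, 605, 1533, 7360, 5341, -2019, 0, 0, 26, 1184]) q440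
(splC (h := [0, 0, 0, 0, -33, 31]) q441
(splC (h := [-7, 24, 31, 224, -69, 155, 0, 0, 31, 31]) q442
q443)))
q444)
q445)
q446))))))
(splC (h := [0, -680, -680, 0, -2376, 1360, -416, -13, 4496, -680]) (splC (h := [0, 416, 416, 0, 9248, -832, -2912, -91, 416, 416]) (splC (h := [0, 0, 0, 0, -5, 8]) (splC (h := [0, 2208, 2208, 20704, -6656, -4416, 5248, -483, 2208, 2208]) (splC (h := [0, 680, 680, 0, -2800, -1360, 416, 13, 680, 680]) q447
(splC (h := [0, 0, 0, 0, -64, -64, 0, 0, 64, 33]) (splC (h := [0, 0, 0, 0, 0, -448, 0, 0, 0, 297]) (splC (h := [576, 576, 0, -1728, -1152, -14144, -2304, 576, 576, 9207]) (splC (h := [0, 0, 0, 576, 0, -320, 0, -18, 0, 297]) (splC (h := [0, 0, 0, 0, 288, 448, 0, 0, 0, -297]) q448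
q449)
q450)
q451)
q452)
q453))
(splC (h := [0, 0, 0, 192, 192, 0, 0, -6, -77]) (splC (h := [1, 1, 0, -32, -128, -112, 0, 0, 129, 96]) (splC (h := [-8, -8, 0, 256, 379, 251, 0, 0, 0, -252]) q454
(splC (h := [32, 0, 32, -1024, 0, -992, -2016, -63, 0, 1024]) (splC (h := [4, 63, 67, -128, -126, 2, 0, 0, 63, -61]) q455
q456)
q457))
(splC (h := [0, 72, 72, 288, 80, -144, 64, -7, -152, 72]) q458
q459))
(splC (h := [0, 0, 0, 0, -7, 8]) (splC (h := [0, 0, 0, -480, -704, -224, 0, 15, 256, 224]) (splC (h := [0, 960, 960, 5280, 3904, -1376, 0, -165, 64, 416]) q460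
(splC (h := [1106, 13133, 12027, -15104, 31209, 46313, 0, -634, 12027, -58340]) (splC (h := [-5, -168, -163, 160, 159, -1, 0, 0, 154, 164]) (splC (h := [-3, 26, 29, 96, 32, -64, 0, 0, 29, 35]) (splC (h := [0, 0, 0, 0, -31, 33]) (splC (h := [-3, 26, 29, 10240, 32, 10080, 0, -317, 29, -282]) q461
q462)
q463)
q464)
q465)
q466))
q467)
q468)))
(splC (h := [-1, 0, -1, 32, -32, -64, 0, 0, -32, 63]) (splC (h := [32, 0, 32, -1024, -992, 32, 0, 0, 961]) q469
(splC (h := [0, 0, 0, 128, -64, 0, 0, 0, 11]) q470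
(splC (h := [256, 2048, 2304, -8192, -4096, -6696, 0, 0, 2048, 2017]) q471
q472)))
(splC (h := [0, 0, 0, 0, 32, 144, -32, -1, -32]) (splC (h := [0, 72, 72, 288, 80, -144, 64, -7, -152, 72]) q473
q474)
q475)))
(splC (h := [0, 0, 0, 0, -352, 0, 0, 0, 131]) q476
(splC (h := [0, 64, 64, 0, 128, 0, -32, -1, -192, 64]) (splC (h := [0, 0, 0, 256, 0, 0, 32, -7]) (splC (h := [0, -64, -64, 0, 256, 128, -32, -1, 192, -64]) (splC (h := [0, 64, 64, 0, 128, -128, 32, 1, -192, 64]) (splC (h := [0, 1, 1, 0, -2, -2, 0, 0, 0, 1]) (splC (h := [0, 448, 448, 0, 384, -896, 288, 9, -1360, 448]) q477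
q478)
q479)
q480)
q481)
(splC (h := [0, 0, 0, 0, -7, 8]) (splC (h := [0, 960, 960, 5280, 3904, -1376, 0, -165, 64, 416]) q482
(splC (h := [4, 71, 67, -128, -254, -126, 0, 0, 67, 59]) (splC (h := [1106, 13133, 12027, -15104, 31209, 46313, 0, -634, 12027, -58340]) q483
q484)
q485))
q486))
(splC (h := [0, 0, 0, 13600, -21056, 2048, 0, -425, 11552, 64]) (splC (h := [0, 0, 0, 0, -658, 64, 0, 0, 361, 2]) (splC (h := [0, 2720, 2720, 0, 9024, 288, 0, 0, -8448, 2899]) (splC (h := [0, 13600, 13600, 0, -1856, -32352, 0, 0, -8448, 13439]) q487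
q488)
q489)
q490)
(splC (h := [2, 16, 18, -64, -63, -63, 0, 0, 16, 16]) q491
q492)))))
(splC (h := [0, 0, 0, 128, -64, 0, 0, 0, 11]) (splC (h := [0, 0, 0, 0, -192, -192, 0, 0, 55, 192]) (splC (h := [0, 0, 0, 0, 192, 0, 0, 0, -77]) (splC (h := [0, 0, 0, 0, 56, 0, 0, 0, -25]) (splC (h := [0, 0, 0, 64, 64, 0, 0, -2, -33]) (splC (h := [0, 0, 0, 6144, -192, 5952, 0, -192, 55]) q493
(splC (h := [-192, 0, -192, 6144, 5952, -192, 0, 0, -3113]) q494
(splC (h := [0, 0, 0, 0, 16, -48, 0, 0, -16, 15]) q495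
(splC (h := [0, 0, 0, 0, 31, -33]) q496
q497))))
(splC (h := [0, 0, 0, 0, -7, 8]) (splC (h := [0, 0, 0, -480, -704, -224, 0, 15, 256, 224]) (splC (h := [0, 960, 960, 5280, 3904, -1376, 0, -165, 64, 416]) q498
q499)
(splC (h := [-15, 64, 49, 480, 320, -160, 0, 0, 64, 81]) q500
(splC (h := [0, 0, 0, 288, 32, 320, 0, -9, -32, -256]) q501
(splC (h := [0, 0, 0, 192, 192, 0, 0, -6, -77]) q502
q503))))
q504))
q505)
q506)
(splC (h := [0, 0, 0, 0, -5, 8]) (splC (h := [0, 0, 0, 0, 416, 0, -416, -13, 1024]) (splC (h := [0, 0, 0, 468, 416, 0, 52, -13, -236]) (splC (h := [0, 0, 0, 0, -4160, -3744, 416, 13, 2720, 3744]) (splC (h := [-1248, 0, -1248, 39936, 34112, -1248, 4576, 143, -19232]) q507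
(splC (h := [0, 0, 0, 119808, -4160, 116064, 416, -3731, 2720]) q508
(splC (h := [-21, 64, 43, 672, 320, -352, 0, 0, 64, 267]) q509
q510)))
(splC (h := [0, 24, 24, 96, 48, -48, 0, -3, -50, 24]) q511
q512))
(splC (h := [0, 0, 0, 0, -33, 31]) q513
(splC (h := [-7, 24, 31, 18752, -69, 18683, 0, -579, 31, -548]) (splC (h := [4, 69, 65, -128, -126, -254, 0, 0, 65, 65]) (splC (h := [44, 759, 715, -1408, -1386, 9558, 0, 0, 715, -5654]) (splC (h := [1636, 18957, 17321, -52352, -70062, 211090, 0, 0, 16163, -117586]) (splC (h := [-7, 24, 31, 224, -69, 155, 0, 0, 31, 31]) q514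
(splC (h := [0, 0, 0, -992, 1120, -1984, 0, 31, -64]) q515
q516))
q517)
q518)
q519)
(splC (h := [0, 0, 0, 0, 31, -33]) q520
q521))))
(splC (h := [0, 0, 0, 0, -192, -192, 0, 0, 121, 192]) (splC (h := [0, 0, 0, 0, -31, 33]) (splC (h := [0, 0, 0, 192, 192, 0, 0, -6, -77]) q522
(splC (h := [0, 0, 0, 288, 32, 320, 0, -9, -32, -256]) q523
(splC (h := [4, 69, 65, -128, -258, -130, 0, 0, 65, 65]) (splC (h := [0, 0, 0, 0, -33, 31]) q524
(splC (h := [1636, 18957, 17321, -52352, -70062, 211090, 0, 0, 16163, -117586]) (splC (h := [-7, 24, 31, 224, -69, 155, 0, 0, 31, 31]) q525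
q526)
q527))
q528)))
(splC (h := [0, -8, -8, 0, 16, 16, 0, 0, -1, -8]) q529
q530))
(splC (h := [0, 24, 24, 96, 48, -48, 0, -3, -50, 24]) (splC (h := [0, -1, -1, 128, -2, 126, 0, -4, 3, -1]) q531
q532)
(splC (h := [-36, -301, -265, 1152, 1774, 622, 0, 0, -265, -357]) (splC (h := [-36, -301, -265, 1152, 494, 1646, 0, 0, -265, -357]) q533
(splC (h := [-28, -199, -227, 896, 1266, 370, 0, 0, -299, -199]) q534
(splC (h := [-15, 64, 49, 480, 320, -160, 0, 0, 64, 81]) q535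
(splC (h := [4, 69, 65, -128, -258, -130, 0, 0, 65, 65]) (splC (h := [0, 0, 0, 0, -33, 31]) q536
(splC (h := [44, 759, 715, -1408, -1386, 9558, 0, 0, 715, -5654]) q537
q538))
(splC (h := [-4, -69, -65, 128, 126, 254, 0, 0, -65, -65]) q539
(splC (h := [-7, 24, 31, 224, -69, 155, 0, 0, 31, 31]) (wspC (b := 0) (by decide) q540
q541
q542)
q543))))))
(splC (h := [0, 0, 0, 0, -7, 8]) (splC (h := [0, 0, 0, 0, -33, 31]) q544
(splC (h := [0, 0, 0, 480, 224, -256, 0, -15, 224, 256]) (splC (h := [0, 960, 960, 5280, 3904, -1376, 0, -165, 64, 416]) q545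
q546)
q547))
q548)))))
q549))
(splC (h := [0, -8, -8, 0, -16, 80, 0, 0, 13, -8]) (splC (h := [0, 24, 24, 96, 48, -48, 0, -3, -50, 24]) (splC (h := [0, -8, -8, 0, 16, 16, 0, 0, 13, -8]) (splC (h := [0, -1, -1, 128, -2, 126, 0, -4, 3, -1]) q550
(wspC (b := 0) (by decide) q551
q552
q553))
(splC (h := [0, 0, 0, 0, -5, 8]) (splC (h := [0, 0, 0, 0, 416, 0, -416, -13, 1024]) (splC (h := [0, 0, 0, 468, 416, 0, 52, -13, -236]) q554
q555)
(splC (h := [0, 0, 0, 192, 192, 0, 0, -6, -77]) q556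
q557))
q558))
(splC (h := [-7, 31, 24, 224, 155, -69, 0, 0, 31, 31]) (splC (h := [4, 65, 69, -128, -254, -126, 0, 0, 65, 65]) (splC (h := [0, 0, 0, 0, -31, 33]) (splC (h := [356, 1153, 1509, 7136, 5186, -1950, 0, -579, 574, 1153]) q559
q560)
q561)
q562)
(splC (h := [-36, -301, -265, 1152, 1774, 622, 0, 0, -265, -357]) (splC (h := [-36, -301, -265, 1152, 494, 1646, 0, 0, -265, -357]) q563
(splC (h := [0, 0, 0, -480, -704, -224, 0, 15, 256, 224]) (splC (h := [0, 960, 960, 5280, 3904, -1376, 0, -165, 64, 416]) q564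
q565)
(splC (h := [-4, -69, -65, 128, 258, 130, 0, 0, -65, -65]) (splC (h := [-4, -69, -65, 128, 126, 254, 0, 0, -65, -65]) q566
(splC (h := [44, 759, 715, -1408, -1386, 9558, 0, 0, 715, -5654]) q567
q568))
q569)))
(splC (h := [0, 960, 960, 5280, 3904, -1376, 0, -165, 64, 416]) q570
q571))))
q572))))
(splC (h := [2, 16, 18, -64, -63, -63, 0, 0, 16, 16]) q573
(splC (h := [4, 32, 36, -128, -64, -93, 0, 0, 32, 32]) (splC (h := [32, 256, 288, -1024, -512, 0, 0, 0, 256, 225]) (splC (h := [-1, -8, -9, 32, 16, 0, 0, 0, -8, 23]) q574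
q575)
(splC (h := [0, 0, 0, 0, 16, 16, 0, 0, -16, 15]) q576
q577))
(splC (h := [0, 0, 0, 0, 16, -48, 0, 0, -16, 15]) q578
(splC (h := [0, 0, 0, 0, 288, 448, 0, 0, 0, -297]) q579
(splC (h := [0, 0, 0, 0, 96, 32, 0, 0, -32, 1]) (splC (h := [0, 64, 64, 0, 1504, 32, 0, 0, -544, 69]) q580
q581)
q582)))))))))
(splC (h := [0, 0, 0, 128, -64, 0, 0, 0, 11]) (splC (h := [32, 0, 32, -1024, -992, 32, 0, 0, 961]) (splC (h := [-1, 0, -1, 32, -32, -64, 0, 0, -32, 63]) (splC (h := [-1, 0, -1, -31, -32, -1, 0, 63, -32]) (splC (h := [61, 0, 61, -125, -64, -128, -252, 63, -64, 63]) q583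
(splC (h := [160, 0, 160, -80, -928, -344, 0, 168, -277, 168]) q584
(splC (h := [-8, -8, 0, 16, 160, 0, -32, -9, -8]) (splC (h := [-8, -8, 0, 160, 16, 0, -32, -9, -8]) q585
q586)
(splC (h := [0, 1, 1, -16, -48, -32, 0, 16, 16]) (splC (h := [0, 0, 0, 31, -33]) (splC (h := [0, 0, 0, 1, 1, 0, 0, -1, 1]) q587
q588)
q589)
q590))))
q591)
(splC (h := [-8, -8, 0, 160, 16, 0, -32, -9, -8]) (splC (h := [-8, -8, 0, 16, 160, 0, -32, -9, -8]) q592
(splC (h := [0, 0, 0, 0, 0, 16, 0, 0, -3]) (splC (h := [0, 0, 0, 16, 0, 0, 0, 0, -3]) (splC (h := [0, 0, 0, 0, -16, 0, 0, 0, 13]) q593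
q594)
q595)
q596))
(splC (h := [-4, -32, -36, 128, 157, 93, 0, 0, -32, -32]) (splC (h := [4, 32, 36, -128, -64, -93, 0, 0, 32, 32]) q597
q598)
q599)))
(splC (h := [0, 0, 0, 0, -192, -192, 0, 0, 55, 192]) (splC (h := [0, 0, 0, 0, 192, 0, 0, 0, -77]) q600
(splC (h := [0, 0, 0, 0, -64, -64, 0, 0, -33, 64]) (splC (h := [64, 0, 64, -128, -448, -128, 0, 64, -107, 64]) q601
(splC (h := [425, 425, 0, -850, 3756, -448, 0, 425, -2102, -14]) (splC (h := [0, 0, 0, 0, 233, -64, 0, 0, 64, -2]) (splC (h := [0, 0, 0, 0, 96, 32, 0, 0, -32, 1]) q602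
q603)
q604)
q605))
(splC (h := [0, 0, 0, 0, 1472, -1776, 0, 0, -944, 1347]) (splC (h := [0, 0, 0, 0, 96, 32, 0, 0, -32, 1]) (splC (h := [425, 425, 0, -1275, 6802, 1984, -1700, 425, -2409, 62]) (splC (h := [0, 13600, 13600, 0, -1856, -32352, 0, 0, -8448, 13439]) (splC (h := [160, 0, 160, -320, 1184, -32, 0, 160, -788, 169]) q606
q607)
q608)
(splC (h := [0, 0, 0, -128, -32, -96, 0, 128, -32, -3]) q609
q610))
q611)
q612)))
(splC (h := [0, -8, -8, 0, -16, 80, 0, 0, 13, -8]) q613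
q614)))
(splC (h := [-1, -1, 0, 2, -2, -4, 0, -1, 3, 4]) (splC (h := [8, 8, 0, -16, 16, -32, 0, 8, -24, -1]) (splC (h := [-1, -1, 0, 2, 2, 0, 0, -1, 3]) (splC (h := [-8, -8, 0, 16, 16, 0, 0, -8, 23]) (splC (h := [1, -1, 2, -4, -2, -4, -8, 1, 3, 2]) q615
(splC (h := [0, 0, 0, 0, 16, -16, -32, -1, -16, 16]) (splC (h := [16, 0, 16, -48, 64, -32, -160, 13, -64, 16]) q616
(splC (h := [1, 0, 1, -2, -1, -6, 0, 1, 1]) q617
(splC (h := [0, 0, 0, 0, 2, -3]) q618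
q619)))
q620))
(splC (h := [16, 0, 16, -48, 64, -128, -64, 16, -64, 13]) q621
(splC (h := [0, 0, 0, 0, -32, -224, 0, 0, -32, 125]) (splC (h := [64, 0, 64, -192, -32, -224, -256, 64, -32, 61]) q622
(splC (h := [1, 0, 1, -3, -1, -1, -4, 1, 1]) q623
q624))
q625)))
(splC (h := [16, 0, 16, -48, 64, -32, -160, 13, -64, 16]) q626
(splC (h := [0, 0, 0, 0, -32, -224, 0, 0, -32, 125]) (splC (h := [0, 0, 0, 0, -32, 32, 0, 0, 32, 1]) (splC (h := [64, 0, 64, -192, -32, -224, -256, 64, -32, 61]) q627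
(splC (h := [0, 0, 0, 0, -5, 8]) q628
q629))
q630)
q631)))
(splC (h := [0, -8, -8, 0, 16, 160, -32, -1, -8, -8]) q632
q633))
(splC (h := [0, 0, 0, 0, -32, 32, 0, 0, 32, 1]) (splC (h := [0, 0, 0, 0, 32, 112, 0, 0, 112, -145]) (splC (h := [0, 0, 0, 0, 32, 112, 0, 0, -32, -1]) (splC (h := [0, 0, 0, 288, 80, -80, 0, -9, -80, 146]) (splC (h := [288, 0, 288, -576, -1360, 784, -1152, 252, 1360, -115]) q634
q635)
q636)
q637)
(splC (h := [0, 0, 0, 0, 16, 16, 0, 0, 15, -16]) (splC (h := [0, 0, 0, 0, 16, -16, -32, -1, -16, 16]) q638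
q639)
q640))
q641))))
(splC (h := [0, 0, 0, 0, -32, 0, -32, -1, 32]) (splC (h := [0, 32, 32, 0, -32, -224, -32, -1, 0, 32]) (splC (h := [32, 32, 0, -96, -32, 0, -160, 31]) (splC (h := [0, 0, 0, 0, 2016, 2048, -32, -1, -32, -64]) (splC (h := [32, 0, 32, -64, 32, -96, -32, 31, -32, 32]) q642
q643)
q644)
(splC (h := [-8, -8, 0, 16, 160, 0, -32, -9, -8]) (splC (h := [16, 16, 0, -32, -32, 288, 64, 18, 16, -9]) q645
(splC (h := [-8, -8, 0, 32, 32, 32, 0, -8, -8, -1]) q646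
(splC (h := [-3, 0, -3, -128, -32, 96, 0, 125, -32]) (splC (h := [867, 1000, -133, -3008, 1248, 4256, 0, 1000, -752]) (splC (h := [24, 25, -1, -76, -44, 32, 0, 25, 6]) (splC (h := [1, 0, 1, 1, 94, -32, 0, 0, -31]) (splC (h := [96, 0, 96, 96, 1024, -7072, 0, 0, 1024, -125]) q647
q648)
q649)
q650)
(splC (h := [0, 64, 64, 0, 0, 2080, 0, 0, 24, -63]) (splC (h := [0, -64, -64, 0, 2080, -2080, 0, 0, -24, 63]) (splC (h := [0, -512, -512, 0, 14560, -18720, -4160, -130, 1368, 569]) (splC (h := [0, -32, -32, 0, 0, 0, 0, 0, 768, -1]) (splC (h := [5824, 4648, -1176, -11648, 7072, 18720, 0, 5824, 1418, 129]) q651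
(splC (h := [-1, 0, -1, -31, -32, -1, 0, 63, -32]) q652
(splC (h := [-5713, -6354, 641, 10912, 12708, 35164, -9748, -6354, -6354]) (splC (h := [0, 0, 0, 0, 1, -1]) (splC (h := [-379, -320, -59, -1856, 640, 1280, 0, 2117, -320]) (splC (h := [-827, -814, -13, 1615, -809, 3256, 0, -814, 1623]) (splC (h := [157, 184, -27, -395, -368, 1701, 0, 184, 184]) (splC (h := [-52320, -57344, 5024, 119712, 36704, 307360, 0, -57344, -59781]) (splC (h := [7840, 6208, 1632, -10784, -12416, 53152, 0, 6208, 6208, -2437]) q653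
q654)
(splC (h := [7840, 6208, 1632, -10784, -12416, 53152, 0, 6208, 6208, -2437]) (splC (h := [7013, 2957, -818, -9169, -13225, 56408, 0, 5394, 5394]) q655
q656)
q657))
q658)
q659)
q660)
q661)
q662)))
(splC (h := [-827, -814, -13, 1615, -809, 3256, 0, -814, 1623]) q663
q664))
(splC (h := [0, 0, 0, 33, -31]) q665
(splC (h := [11451, 10469, -462, -48357, -23104, 14784, 0, 11191, 11191]) q666
q667)))
q668)
q669))
(splC (h := [11451, 10469, -462, -48357, -23104, 14784, 0, 11191, 11191]) (splC (h := [0, 0, 0, -33, 31]) (splC (h := [32736, 39653, 6917, -264000, -100320, -221344, 0, 32736, 32736]) q670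
q671)
q672)
(splC (h := [0, 0, 0, -33, 31]) (splC (h := [0, 0, 0, 4160, -992, -1056, 0, -2048, 992, 33]) (splC (h := [1358, 1552, -194, 31480, -7656, -4320, 0, -16632, 6104, 329]) q673
(splC (h := [0, 64, 64, 0, 0, 2080, 0, 0, 24, -63]) (splC (h := [0, -64, -64, 0, 2080, -2080, 0, 0, -24, 63]) q674
q675)
q676))
q677)
q678)))))
q679))
(splC (h := [0, -8, -8, 0, 16, 160, -32, -1, -8, -8]) (splC (h := [0, -8, -8, 0, 160, 16, -32, -1, -8, -8]) (splC (h := [0, 16, 16, 288, -32, -32, 64, -7, 16, 16]) q680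
(splC (h := [0, 0, 0, 288, 80, -80, 0, -9, -80, 146]) q681
q682))
q683)
q684))
(splC (h := [8, 8, 0, -16, 16, -32, 0, 8, -24, -1]) (splC (h := [-1, -1, 0, 2, -2, -4, 0, -1, 3, 4]) (splC (h := [1, -1, 2, -4, -2, -4, -8, 1, 3, 2]) (splC (h := [-1, -1, 0, 126, -2, 128, 0, -1, 3, -4]) q685
(splC (h := [27, 31, -4, -66, 62, 128, 0, 31, -93]) q686
(splC (h := [-1, -1, 0, -2, -2, 0, 0, 2, 3]) q687
(splC (h := [-3, 1, -4, 126, 62, 128, 0, -131, 1]) q688
(splC (h := [-9, -8, -1, 15, 47, 32, 0, -8, -8]) (splC (h := [-9, -8, -1, -16, 16, 32, 0, 23, -8]) q689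
(splC (h := [-1397, -1287, 110, 5367, -3465, -3520, 0, -1397, 4972]) (splC (h := [221, 1161, -218, 4579, -2397, 6976, 0, 800, 1958]) q690
q691)
(splC (h := [-79, -67, -12, 634, 250, 384, 0, -67, -183]) q692
q693)))
(wspC (b := 2) (by decide) q694
(splC (h := [-128, 0, -128, -128, 992, 7072, 0, 0, 992, 93]) q695
q696)
(splC (h := [0, 0, 0, -32, -32, 0, 0, 32, 1]) q697
q698)))))))
(splC (h := [1, -1, 2, -2, -2, -14, 0, 1, 3, 2]) q699
(splC (h := [-8, 0, -8, 152, -32, 16, -21, -8, 32, -8]) (splC (h := [-8, 0, -8, 24, 16, 16, -21, -8, 32, -8]) (splC (h := [-8, 0, -8, -24, -32, 16, 1, 40, 32, -8]) (splC (h := [0, 0, 0, 4, -1]) (splC (h := [8, 0, 8, -24, 32, -16, 5, 8, -32, 8]) (splC (h := [128, 0, 128, -384, 512, -352, 92, 128, -512, 125]) (splC (h := [-8, 0, -8, 24, -32, -32, -11, -8, 32, 40]) q700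
(splC (h := [0, 0, 0, 0, -32, 32, 0, 0, 32, 1]) (splC (h := [0, 0, 0, 0, 2, -3]) (splC (h := [0, 0, 0, 0, -1024, -2144, 0, 0, 1024, 1445]) (splC (h := [1440, 0, 1440, -4320, -6688, 352, -5760, 1440, 6688, 1595]) q701
q702)
q703)
q704)
q705))
q706)
q707)
q708)
(splC (h := [16, 0, 16, -48, 64, -32, -160, 13, -64, 16]) q709
(splC (h := [0, 0, 0, -1440, -704, -1024, 0, 1440, 704, -5]) q710
q711)))
q712)
q713)))
(splC (h := [0, 0, 0, 0, 16, -48, 0, 0, -16, 15]) q714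
(splC (h := [0, 0, 0, 0, 32, 112, 0, 0, 112, -145]) (splC (h := [0, 0, 0, 0, 32, 112, 0, 0, -32, -1]) (splC (h := [0, 0, 0, 288, 80, -80, 0, -9, -80, 146]) q715
q716)
q717)
q718)))
(splC (h := [-8, -8, 0, 16, 160, 0, -32, -9, -8]) (splC (h := [0, 0, 0, 0, -1, 0, 0, 0, 1]) (splC (h := [16, 16, 0, -32, -32, 288, 64, 18, 16, -9]) (splC (h := [-8, -8, 0, 160, 16, 0, -32, -9, -8]) q719
q720)
(splC (h := [-79, -67, -12, 634, 250, 384, 0, -67, -183]) (splC (h := [-79, -67, -12, 122, 506, 384, 0, -67, -183]) q721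
(splC (h := [0, 0, 0, -64, -64, 0, 0, 64, 33]) (splC (h := [0, 0, 0, 0, 192, 192, 0, 0, -55, -6]) q722
(splC (h := [0, 4, 4, -60, -188, -128, 0, 45, 68]) (splC (h := [0, -8, -8, -132, 124, 256, 0, 99, 116]) (splC (h := [0, 0, 0, 33, -31]) q723
q724)
q725)
q726))
(splC (h := [0, 0, 0, 95, 31, 64, 0, -33, -31, -2]) (splC (h := [0, 0, 0, 33, 97, 64, 0, -33, -31, -2]) (splC (h := [0, -2, -2, -33, -33, 0, 0, 33, 31, 2]) q727
(splC (h := [0, 0, 0, -1, 63, 64, 0, 1, -1, -2]) q728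
(splC (h := [1, -3, -4, 62, 126, 128, 0, 1, -131]) q729
q730)))
q731)
(splC (h := [0, 0, 0, -31, 33]) (splC (h := [31, 24, -7, 155, -69, 224, 0, 31, 31]) q732
(splC (h := [69, 65, 4, -258, -130, -128, 0, 65, 65]) (wspC (b := 2) (by decide) q733
q734
q735)
q736))
q737))))
(splC (h := [31, 24, -7, 155, -69, 224, 0, 31, 31]) (splC (h := [0, 0, 0, -31, 33]) (splC (h := [-1397, -1287, 110, 5367, -3465, -3520, 0, -1397, 4972]) q738
q739)
q740)
q741)))
(splC (h := [16, 0, 16, -48, 64, -32, -160, 13, -64, 16]) (splC (h := [-1, -1, 0, 2, -2, -4, 0, -1, 3, 4]) (splC (h := [-1, 0, -1, 3, 2, 2, 4, -1, 4, -1]) (splC (h := [-1, 0, -1, -3, -4, 2, 4, 5, 4, -1]) (splC (h := [-16, 0, -16, 48, 32, 32, 64, -16, 61, -16]) q742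
q743)
(splC (h := [8, 8, 0, -16, 16, 0, -32, 7, -24]) q744
(splC (h := [0, 0, 0, 48, 0, 0, 0, 0, -11]) (splC (h := [-24, -24, 0, 48, 0, 0, 0, -24, 61]) q745
(splC (h := [0, 0, 0, -64, -64, 0, 0, 64, 33]) q746
(splC (h := [-448, -504, 56, 896, 152, 1048, 0, -448, 121, 56]) (splC (h := [448, 736, -288, -896, 1472, 576, -928, 419, -1020, -288]) q747
q748)
q749)))
q750)))
(splC (h := [8, 8, 0, -16, 16, 0, -32, 7, -24]) q751
(splC (h := [-72, -72, 0, 144, 104, 0, -32, -73, 184]) (splC (h := [72, 72, 0, -144, 80, 288, 64, 74, -152, -9]) (splC (h := [297, 261, -36, -594, 302, 1152, 256, 305, -635]) (splC (h := [-1, -1, 0, 126, -2, 128, 0, -1, 3, -4]) q752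
(splC (h := [243, 279, -36, -594, 302, 1152, 256, 287, -581]) q753
(splC (h := [221, 1161, -218, 4579, -2397, 6976, 0, 800, 1958]) q754
q755)))
(splC (h := [1, 1, 0, -2, 126, 128, 0, 1, -3, -4]) (splC (h := [-1, -1, 0, 126, -2, 128, 0, -1, 3, -4]) q756
(splC (h := [243, 279, -36, -594, 302, 1152, 256, 287, -581]) q757
(splC (h := [-1, -1, 0, -2, -2, 0, 0, 2, 3]) q758
(splC (h := [-79, -67, -12, 634, 250, 384, 0, -67, -183]) (splC (h := [-79, -67, -12, 122, 506, 384, 0, -67, -183]) q759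
q760)
q761))))
q762))
(splC (h := [-3, 1, -4, 126, 62, 128, 0, -131, 1]) q763
(splC (h := [-9, -8, -1, 15, 47, 32, 0, -8, -8]) (splC (h := [-9, -8, -1, 48, 16, 32, 0, -8, -8]) q764
(splC (h := [31, 24, -7, 155, -69, 224, 0, 31, 31]) (splC (h := [221, 1161, -218, 4579, -2397, 6976, 0, 800, 1958]) q765
(splC (h := [-79, -67, -12, 122, 506, 384, 0, -67, -183]) q766
(splC (h := [0, 0, 0, -64, -64, 0, 0, 64, 33]) (splC (h := [0, 0, 0, 0, 192, 192, 0, 0, -55, -6]) (splC (h := [-192, 0, -192, -192, 5952, 6144, 0, 0, -1661]) q767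
(splC (h := [0, 0, 0, 1984, -64, 2048, 0, 0, 33, -64]) q768
(splC (h := [0, 0, 0, 31, -1, 32, 0, 0, 1, -1]) q769
q770)))
q771)
q772)))
(splC (h := [8, 8, 0, -48, -48, -32, 0, 8, 40, 1]) q773
(splC (h := [-79, -67, -12, 122, 506, 384, 0, -67, -183]) q774
(splC (h := [697, 651, 46, 9578, -1302, -1472, 0, -5332, 651]) q775
(splC (h := [0, 0, 0, 0, 192, 192, 0, 0, -55, -6]) q776
q777))))))
(splC (h := [5344, 6880, -1536, -15296, 34400, 49152, -544, 6863, 6880]) (splC (h := [697, 651, 46, 4727, 3255, -1472, 0, -5332, 651]) (splC (h := [0, 0, 0, 33, -31]) (splC (h := [24, 31, -7, -69, 155, 224, 0, 31, 31]) q778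
q779)
(splC (h := [31, 24, -7, 155, -69, 224, 0, 31, 31]) (splC (h := [-161, -162, -1, 18302, -258, 18560, 0, -161, 418, -579]) q780
q781)
(splC (h := [697, 651, 46, 9578, -1302, -1472, 0, -5332, 651]) q782
q783)))
q784)
(splC (h := [-16, -16, 0, 32, 48, 32, 0, -16, 16, -1]) (splC (h := [1, -3, -4, 62, 126, 128, 0, 1, -131]) (wspC (b := 2) (by decide) q785
(splC (h := [0, 0, 0, 16, 32, 32, 0, 0, -32, -1]) (splC (h := [33, 29, -4, -66, -66, 0, 0, 33, 29, 4]) q786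
q787)
q788)
q789)
(splC (h := [1161, 221, -218, -2397, 4579, 6976, 0, 1958, 800]) (splC (h := [17, 19, 2, -30, -94, -64, 0, 13, 17]) (splC (h := [29, 22, -7, -72, 152, 224, 0, 43, 29]) (splC (h := [1025, 1156, 131, -2142, 4994, 7136, 0, 1117, 1025, -354]) q790
q791)
q792)
q793)
(splC (h := [-585, -621, -36, 1262, 2414, 1152, 0, -677, -585]) q794
q795)))
(splC (h := [0, 1, 1, -16, -48, -32, 0, 16, 16]) q796
q797))))))
(splC (h := [0, 0, 0, -64, -64, 0, 0, 64, 33]) (splC (h := [0, 0, 0, 0, 192, 192, 0, 0, -55, -6]) (splC (h := [0, 0, 0, 1984, -64, 2048, 0, 0, 33, -64]) q798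
(splC (h := [-192, 0, -192, -192, 5952, 6144, 0, 0, -1661]) q799
(wspC (b := 2) (by decide) q800
q801
(splC (h := [0, 0, 0, 0, -32, -32, 0, 0, 32, 1]) (splC (h := [0, 0, 0, -32, -32, 0, 0, 32, 1]) (splC (h := [0, 0, 0, 31, -1, 32, 0, 0, 1, -1]) q802
(splC (h := [-1, 0, -1, -32, 0, 32, 0, 31]) (splC (h := [32, 0, 32, -992, 0, -1024, -2016, 961]) q803
(splC (h := [208, 189, 19, 1553, 945, -608, 0, -1723, 189]) q804
q805))
q806))
q807)
q808))))
(splC (h := [0, 0, 0, 33, -31]) (splC (h := [24, 31, -7, -69, 155, 224, 0, 31, 31]) q809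
(splC (h := [0, -1, -1, 0, 16, 32, 0, 0, 31]) q810
(splC (h := [17, 19, 2, -30, -94, -64, 0, 13, 17]) q811
q812)))
(splC (h := [-3, 0, -3, -128, -32, 96, 0, 125, -32]) q813
(splC (h := [0, 0, 0, 8, -7]) q814
q815))))
(splC (h := [-168, -168, 0, 720, 48, 0, 0, -168, 43]) (splC (h := [24, 24, 0, -48, 48, 96, 0, 24, -50, -3]) (splC (h := [-1, -1, 0, 126, -2, 128, 0, -1, 3, -4]) q816
(splC (h := [81, 93, -12, -198, 186, 384, 0, 93, -191]) q817
(wspC (b := 2) (by decide) q818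
q819
q820)))
(splC (h := [0, 0, 0, 95, 31, 64, 0, -33, -31, -2]) (splC (h := [0, 0, 0, 33, 97, 64, 0, -33, -31, -2]) (splC (h := [0, -2, -2, -33, -33, 0, 0, 33, 31, 2]) q821
(splC (h := [0, 0, 0, -1, 63, 64, 0, 1, -1, -2]) q822
(splC (h := [-585, -621, -36, 1262, 2414, 1152, 0, -677, -585]) q823
q824)))
q825)
(splC (h := [65, 69, 4, -254, -126, -128, 0, 65, 65]) (splC (h := [0, 0, 0, -31, 33]) (splC (h := [-227, -199, -28, 370, 1266, 896, 0, -199, -299]) q826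
(splC (h := [143, 192, -49, -608, 960, 1568, 0, 367, 192]) q827
(splC (h := [-1397, -1287, 110, 5367, -3465, -3520, 0, -1397, 4972]) (splC (h := [31, 24, -7, 155, -69, 224, 0, 31, 31]) (splC (h := [-161, -162, -1, 18302, -258, 18560, 0, -161, 418, -579]) q828
(wspC (b := 2) (by decide) q829
q830
q831))
(wspC (b := 2) (by decide) q832
q833
(splC (h := [1069, 1009, 60, -1890, -3810, -1920, 0, 941, 1009]) q834
q835)))
(wspC (b := 2) (by decide) q836
q837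
(splC (h := [1069, 1009, 60, -1890, -3810, -1920, 0, 941, 1009]) q838
q839)))))
q840)
q841)))
q842)))))
(splC (h := [0, -8, -8, 0, -16, 80, 0, 0, 13, -8]) (splC (h := [0, -12, -12, -48, -24, 24, 0, 48, 25, -12]) (splC (h := [32, -16, 16, -96, -32, -32, 0, 32, 37, 16]) q843
q844)
(splC (h := [0, 0, 0, 32, 16, -16, 0, -1, -16, 16]) q845
(splC (h := [-2, -2, 0, 0, 31, 31, 0, 64, -33, -31]) (splC (h := [122, -6, 128, -64, -3, -67, 0, 128, -3, -61]) q846
q847)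
q848)))
(splC (h := [0, 0, 0, -144, -40, 40, 0, 144, 40, -73]) q849
(splC (h := [0, 0, 0, 32, 16, -16, 0, -1, -16, 16]) q850
q851))))
(splC (h := [-72, -72, 0, 144, 104, 0, -32, -73, 184]) (splC (h := [-36, -36, 0, 72, -40, -144, -32, -37, 76, 144]) (splC (h := [144, -144, 288, -576, -1280, -576, -160, 175, 1424, 288]) q852
(splC (h := [-8, 0, -8, 24, 16, 16, -21, -8, 32, -8]) (splC (h := [-8, 0, -8, 24, -32, -32, -11, -8, 32, 40]) q853
(splC (h := [0, -12, -12, -48, -24, 24, 0, 48, 25, -12]) q854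
(splC (h := [472, 0, 472, -12984, -11872, -18104, 0, 472, 11872, 15685]) (splC (h := [-231, -259, 28, 434, 462, -56, -112, -231, 45, 28]) q855
q856)
q857)))
q858))
(splC (h := [0, -8, -8, 0, -16, 80, 0, 0, 13, -8]) q859
q860))
(splC (h := [-8, 0, -8, 16, 56, 16, 0, -8, 33, -8]) (splC (h := [-40, 0, -40, 80, -232, -432, 0, -40, 165, 472]) (splC (h := [-40, 0, -40, 80, 280, 80, 0, -40, 149, -40]) q861
q862)
q863)
q864))))
(splC (h := [-72, -72, 0, 144, 104, 0, -32, -73, 184]) (splC (h := [72, 72, 0, -144, 112, 0, 32, 73, -184]) q865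
q866)
(splC (h := [0, 0, 0, 0, 96, 32, 0, 0, -32, 1]) (splC (h := [0, 0, 0, 0, -658, 64, 0, 0, 361, 2]) (splC (h := [425, 425, 0, -850, -1659, -128, 0, 425, -297, -4]) (splC (h := [0, 0, 0, 0, 233, -64, 0, 0, 64, -2]) q867
q868)
(splC (h := [-96, -96, 0, 288, -192, 0, 0, -96, 233]) (splC (h := [-96, -96, 0, 192, -192, 12288, 0, -96, 233]) (splC (h := [24, 24, 0, -48, 48, 0, 0, 24, -61]) (splC (h := [24, 24, 0, -48, 48, 96, 0, 24, -50, -3]) q869
q870)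
q871)
q872)
q873))
q874)
q875)))))))

theorem hB : Closed (rootB (-1) 1) :=
(splC (h := [0, 0, 0, 1, -1, 0, 0, -1, 1]) (splC (h := [0, 0, 0, -64, -64, 0, 0, 33, 64]) (splC (h := [0, 32, 32, -64, -224, -64, 0, 33, 32, 32]) (splC (h := [0, 0, 0, -64, 0, 0, 0, 64, 25]) (splC (h := [0, 0, 0, 64, 0, 0, 0, 0, -25]) (splC (h := [0, 0, 0, 64, 0, 0, 0, -2, -25]) (splC (h := [0, 0, 0, 0, -64, 0, 0, 0, 39]) (splC (h := [0, 0, 0, 0, -64, 0, 0, 0, 23]) (splC (h := [0, 64, 64, 0, -128, -128, -256, -8, -11, 64]) q876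
(splC (h := [0, 32, 32, 0, -64, -224, 0, 0, 7, 32]) q877
(splC (h := [0, 32, 32, 0, -224, -64, 0, 0, 7, 32]) q878
(splC (h := [0, 0, 0, -224, 32, 0, -32, 223, 1]) (splC (h := [-56, -56, 0, 112, 1152, 0, -256, -64, -55]) q879
(splC (h := [0, 0, 0, 32, 112, 0, 0, -32, -1]) (splC (h := [-72, -72, 0, 32, 112, 0, 0, 184, -73]) (splC (h := [2, 2, 0, 3, -4, 0, 0, -5, 2]) q880
(splC (h := [-8, -8, 0, 24, 40, 32, 0, -8, -8, -1]) (splC (h := [0, 0, 0, 32, 48, 32, 0, -32, 0, -1]) (splC (h := [0, -18, -18, 631, 55, 576, 0, -503, -73]) q881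
q882)
q883)
q884))
(splC (h := [0, 0, 0, 1, 0, -1]) (splC (h := [0, 352, 352, 0, -896, -1952, 0, 0, 357, 352]) (splC (h := [0, -16, -16, 0, 80, 128, 0, 0, -15, -16]) (splC (h := [0, -352, -352, -864, 896, 1952, 0, 864, -357, -352]) q885
q886)
q887)
q888)
q889))
q890))
q891))))
(splC (h := [0, 0, 0, 0, 0, -64, 0, 0, 25, -2]) q892
(splC (h := [-56, -56, 0, 112, 1152, 0, -256, -64, -55]) (splC (h := [0, 0, 0, -224, 32, 0, -32, 223, 1]) q893
(splC (h := [0, 0, 0, 64, -64, 0, 0, -33, -2]) q894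
(splC (h := [0, 0, 0, 1, 0, -1]) (splC (h := [0, 0, 0, -112, -320, -144, 0, 112, 287]) (splC (h := [0, 0, 0, -112, -32, 144, 0, 112, -1]) q895
q896)
q897)
q898)))
(splC (h := [2, 2, 0, 3, -4, 0, 0, -5, 2]) q899
(splC (h := [0, 0, 0, 64, -64, 0, 0, -33, -2]) q900
(splC (h := [-24, -24, 0, -16, 48, 96, -32, 39, -24]) q901
q902))))))
q903)
(splC (h := [0, 0, 0, 96, 32, 0, 0, -32, 1]) (splC (h := [0, 0, 0, -32, 32, 0, 0, 32, 1]) (splC (h := [0, 0, 0, -32, -224, 0, 0, -32, 125]) (splC (h := [0, 0, 0, 32, -32, 0, 0, 32, -1]) (splC (h := [0, 64, 64, -32, -224, -448, 0, -32, 61, 64]) (splC (h := [128, 0, 128, 2912, 928, -256, -512, -1056, 29, 128]) q904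
q905)
(splC (h := [-56, -56, 0, 112, 1152, 0, -256, -64, -55]) q906
(splC (h := [0, 64, 64, -32, -544, -128, 0, -32, 61, 64]) q907
q908)))
q909)
q910)
q911)
q912))
(splC (h := [0, 0, 0, -32, 32, 0, 0, 32, 1]) (splC (h := [0, 0, 0, 96, 32, 0, 0, -32, 1]) (splC (h := [0, 64, 64, -32, -224, -448, 0, -32, 61, 64]) (splC (h := [0, 0, 0, -32, -224, 0, 0, -32, 125]) (splC (h := [0, 0, 0, 32, -32, 0, 0, 32, -1]) (splC (h := [128, 0, 128, 2912, 928, -256, -512, -1056, 29, 128]) (splC (h := [128, 128, 0, 2912, 672, 0, -512, -1056, 157]) q913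
(splC (h := [0, 0, 0, 1, 0, -2]) q914
(splC (h := [16, 16, 0, -32, -176, 0, 0, 16, 15]) q915
q916)))
(splC (h := [0, 0, 0, -32, -64, 0, 0, 32, -1]) (splC (h := [16, 16, 0, -32, -176, 0, 0, 16, 15]) q917
(splC (h := [-16, -16, 0, 144, 64, 0, 0, -16, -15]) q918
q919))
(splC (h := [-16, -16, 0, 144, 64, 0, 0, -16, -15]) (splC (h := [-112, -148, 36, 1152, 520, -72, -144, -112, -141, 36]) q920
(splC (h := [80, 8, 72, -360, -176, -504, 0, 80, 3, 72]) q921
q922))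
q923)))
q924)
q925)
(splC (h := [0, 0, 0, -224, 32, 0, -32, 223, 1]) (splC (h := [-56, -56, 0, 112, 1152, 0, -256, -64, -55]) (splC (h := [-56, -56, 0, 1120, -144, 0, 32, -55, -64]) q926
(splC (h := [0, 0, 0, -3, 0, 4]) (splC (h := [32, 0, 32, 800, -224, -64, 0, 32, -7, 32]) q927
q928)
q929))
(splC (h := [0, 64, 64, -32, -544, -128, 0, -32, 61, 64]) q930
(splC (h := [-72, -72, 0, 32, 112, 0, 0, 184, -73]) q931
(splC (h := [0, 96, 96, 332, -224, -192, 0, -332, 95, 96]) (splC (h := [0, 0, 0, 32, -32, 144, 0, -32, -1]) (splC (h := [0, -72, -72, -4, 112, 144, 0, 256, -73, -72]) q932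
(splC (h := [0, 0, 0, 16, 16, 0, 0, 15, -16]) q933
q934))
q935)
q936))))
(splC (h := [0, 0, 0, -215, 297, -64, 0, 215, 0, -2]) q937
q938)))
(splC (h := [0, 16, 16, 0, -176, -32, 0, 0, 15, 16]) (splC (h := [16, 16, 0, -32, -176, 0, 0, 16, 15]) q939
q940)
(splC (h := [0, 0, 0, -3, 0, 4]) (splC (h := [32, 0, 32, 800, -224, -64, 0, 32, -7, 32]) q941
q942)
(splC (h := [-16, -16, 0, 144, 64, 0, 0, -16, -15]) q943
q944))))
q945))
q946)
(splC (h := [-56, -56, 0, 112, 1152, 0, -256, -64, -55]) (splC (h := [0, 0, 0, 64, 0, 0, -64, -35]) (splC (h := [0, 32, 32, -64, -64, -224, 0, 33, 32, 32]) q947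
(splC (h := [0, 64, 64, 0, -128, -128, -256, -8, -11, 64]) (splC (h := [0, 0, 0, 0, -64, 0, 0, 0, 39]) (splC (h := [0, 0, 0, -64, 0, 0, 0, 64, 25]) (splC (h := [0, 0, 0, 0, 0, 0, -64, -2, 25]) q948
(splC (h := [72, 72, 0, 112, -112, 0, 0, -184, 73]) (splC (h := [-72, -72, 0, 32, 112, 0, 0, 184, -73]) q949
(splC (h := [0, 0, 0, -215, 297, -64, 0, 215, 0, -2]) (splC (h := [-24, -24, 0, -16, 48, 96, -32, 39, -24]) (splC (h := [-24, -24, 0, 80, 48, 0, -32, 39, -24]) (splC (h := [-8, -8, 0, 16, 16, 0, 0, 23, -8]) q950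
q951)
q952)
q953)
q954))
q955))
(splC (h := [0, 8, 8, -12, -4, -16, -32, 11, -4, 8]) q956
(splC (h := [0, 0, 0, -1, 2]) q957
(splC (h := [0, 0, 0, -5, 16]) q958
q959))))
q960)
(splC (h := [0, 0, 0, -224, 32, 0, -32, 223, 1]) (splC (h := [-56, -56, 0, 1120, -144, 0, 32, -55, -64]) (splC (h := [56, 56, 0, -112, -144, 0, 256, 64, 55]) q961
q962)
q963)
(splC (h := [0, 32, 32, 128, -64, -64, -352, -139, 32, 32]) q964
q965))))
(splC (h := [0, 0, 0, -224, 32, 0, -32, 223, 1]) (splC (h := [-56, -56, 0, 1120, -144, 0, 32, -55, -64]) q966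
(splC (h := [-8, 0, -8, -24, 0, 16, 0, 39, 0, -8]) (splC (h := [88, -48, 40, -264, 96, -80, -192, 93, -48, 40]) (splC (h := [16, 0, 16, -48, 0, -32, -96, 15, 0, 16]) (splC (h := [104, 96, -24, -312, -192, 48, -64, 101, 96, -24]) (splC (h := [3128, -1248, 1208, -9384, 2496, -2416, -7680, 3279, -1248, 1208]) (splC (h := [622, 96, 46, -1992, -192, 1168, -960, 675, 96, 88]) q967
(splC (h := [-72, -72, 0, 32, 112, 0, 0, 184, -73]) q968
(splC (h := [0, 0, 0, 64, 0, 0, 0, -33]) q969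
q970)))
(splC (h := [89056, -22432, -111488, -178112, 44864, 825952, 157024, 93963, -22432, -111488]) (splC (h := [0, 361, 361, 0, -722, -1910, 256, 8, 361, 361]) (splC (h := [0, 0, 0, 0, 31, -33]) (splC (h := [0, 64, 64, 0, -128, 1951, -448, -14, 64, 64]) (splC (h := [0, -32, -32, 0, 64, 416, 224, 7, -32, -32]) (splC (h := [3872, 1536, -2336, -11616, -3072, 22624, -6880, 4141, 1536, -2336]) q971
(splC (h := [89056, 23776, -65280, -178112, -47552, 225248, 189792, 94987, 23776, -76412]) q972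
(splC (h := [64, 64, 0, 96, -96, 0, -32, -161, 65]) q973
q974)))
q975)
q976)
q977)
(splC (h := [64, 64, 0, 1951, -128, -448, 0, 64, 64, -14]) (splC (h := [-4720, -4720, 0, 16832, 9440, -56016, 0, -4720, -4720, 44169]) q978
(splC (h := [0, 0, 0, -16, 144, 0, -32, 111, -144]) q979
(splC (h := [0, -72, -72, -4, 112, 144, 0, 256, -73, -72]) (splC (h := [0, -16, -16, 512, 32, 32, 64, -231, -16, -16]) q980
q981)
q982)))
(splC (h := [64, 64, 0, 96, -96, 0, -32, -161, 65]) (splC (h := [32, 0, 32, 800, -224, -64, 0, 32, -7, 32]) (splC (h := [-40, 0, -40, 128, -472, 80, 0, -40, 373, -40]) (splC (h := [1976, 2632, -656, -5120, -5936, 1312, 0, 1976, 2611, -656]) q983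
q984)
(splC (h := [-8, -8, 0, 16, 16, -288, 0, -8, -8, 255]) (splC (h := [-8, -8, 0, 144, 144, -32, 0, -8, -8, -1]) (splC (h := [-8, -8, 0, 128, -16, -32, 0, -8, -9, 32]) (splC (h := [-8, -8, 0, 128, -16, 0, 0, 24, -9]) q985
q986)
q987)
q988)
(splC (h := [0, 0, 0, -16, 144, 0, -32, 111, -144]) q989
(splC (h := [-328, -328, 0, 1808, 656, 0, -160, -333, -328]) q990
q991))))
(splC (h := [0, 0, 0, -2464, 0, 0, 160, 1317]) q992
q993))
q994)))
q995))
q996)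
(splC (h := [361, 361, 0, -1910, -722, 256, 0, 361, 361, 8]) (splC (h := [64, 64, 0, 1951, -128, -448, 0, 64, 64, -14]) q997
(splC (h := [-8, -8, 0, 16, 16, -288, 0, -8, -8, 255]) (splC (h := [-8, -8, 0, 144, 0, 0, 0, -8, -9]) (splC (h := [2, 2, 0, 3, -4, 0, 0, -5, 2]) (splC (h := [-24, -24, 0, 80, 48, 0, -32, 39, -24]) q998
(splC (h := [-8, -8, 0, 144, 144, -32, 0, -8, -8, -1]) q999
q1000))
q1001)
(splC (h := [-8, -8, 0, 16, 16, -32, 0, 248, -8, -1]) (splC (h := [-288, -288, 0, -544, 576, 0, -32, 831, -288]) (splC (h := [-1120, -1120, 0, -2176, 2240, 0, -608, 3277, -1120]) q1002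
(splC (h := [0, 32, 32, 396, -160, -64, 0, 0, 29, 32]) q1003
q1004))
q1005)
q1006))
(splC (h := [0, 0, 0, 56, 0, 0, 0, -25]) q1007
(splC (h := [2, 2, 0, 3, -4, 0, 0, -5, 2]) (splC (h := [-24, -24, 0, 80, 48, 0, -32, 39, -24]) q1008
(splC (h := [0, 32, 32, 396, -160, -64, 0, 0, 29, 32]) q1009
q1010))
q1011))))
q1012))
(splC (h := [361, 361, 0, -1910, -722, 256, 0, 361, 361, 8]) (splC (h := [64, 64, 0, 1951, -128, -448, 0, 64, 64, -14]) (splC (h := [-4720, -4720, 0, 16832, 9440, -56016, 0, -4720, -4720, 44169]) (splC (h := [-31488, 57568, 89056, 142176, -115136, -224864, 0, -31488, 57568, 87595]) (splC (h := [-361, -361, 0, -873, 722, -256, 0, 2422, -361, -8]) (splC (h := [57568, -31488, 89056, -35936, 62976, -224864, 0, 57568, -31488, 87595]) q1013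
(splC (h := [-8, -8, 0, 144, 0, 0, 0, -8, -9]) (splC (h := [8, 8, 0, -144, -16, 32, 0, 8, 8, 1]) q1014
q1015)
(splC (h := [67008, -22048, 89056, -158656, 44096, -201888, 0, 67008, -22048, 88313]) q1016
(splC (h := [8, 16, 8, -156, -32, 16, -32, 7, 16, 9]) q1017
q1018))))
(splC (h := [32, 0, 32, 800, -224, -64, 0, 32, -7, 32]) q1019
q1020))
q1021)
q1022)
(splC (h := [-8, -8, 0, 16, 16, -288, 0, -8, -8, 255]) (splC (h := [-8, -8, 0, 144, 144, -32, 0, -8, -8, -1]) (splC (h := [-8, -8, 0, 16, 16, -32, 0, 248, -8, -1]) q1023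
(splC (h := [0, 0, 0, -320, 0, 0, -64, 231]) q1024
q1025))
(splC (h := [32, 0, 32, 800, -224, -64, 0, 32, -7, 32]) (splC (h := [-344, 0, -344, -1080, -224, 688, 0, 2288, -7, -344]) (splC (h := [-40, 0, -40, 128, -472, 80, 0, -40, 373, -40]) q1026
(splC (h := [-8, -8, 0, 128, -16, 0, 0, 24, -9]) q1027
q1028))
q1029)
q1030))
(splC (h := [2, 2, 0, 3, -4, 0, 0, -5, 2]) q1031
q1032)))
q1033))
(splC (h := [-8, -8, 0, 128, -16, 0, 0, 24, -9]) (splC (h := [-8, -8, 0, 128, -16, -32, 0, -8, -9, 32]) (splC (h := [8, 8, 0, -160, -16, 0, 0, 8, 41]) (splC (h := [0, 2, 2, -3, -4, -4, 0, 0, 2, 2]) (splC (h := [8, 8, 0, -144, 16, 0, 0, 8, 9]) q1034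
q1035)
q1036)
q1037)
q1038)
(splC (h := [0, 0, 0, 1420, 0, 0, -160, -753]) q1039
q1040))))
q1041))
q1042))
(splC (h := [0, 0, 0, 16, -16, 0, -32, -17, 16]) q1043
(splC (h := [0, 0, 0, 0, -64, 0, 0, 0, 39]) (splC (h := [0, 0, 0, 32, 112, 0, 0, -32, -1]) (splC (h := [0, 0, 0, -64, 0, 0, 0, 64, 25]) (splC (h := [0, 0, 0, 0, 0, -64, 0, 0, 25, -2]) q1044
(splC (h := [2, 2, 0, 3, -4, 0, 0, -5, 2]) (splC (h := [-72, -72, 0, 32, 112, 0, 0, 184, -73]) q1045
(splC (h := [0, -8, -8, 17, 16, 16, 32, 5, -8, -8]) (splC (h := [0, 24, 24, -506, -568, -48, -96, 245, 544, 24]) (splC (h := [0, -544, -544, 2976, 1088, 1088, 96, -765, -544, -544]) q1046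
(splC (h := [0, 0, 0, 31, -33]) (splC (h := [0, 0, 0, -215, 297, -64, 0, 215, 0, -2]) (splC (h := [0, 0, 0, -361, -873, 64, 0, 361, 576, 2]) q1047
(splC (h := [680, 392, -288, 208, 656, 576, -992, -919, 392, -288]) q1048
q1049))
q1050)
q1051))
q1052)
q1053))
(splC (h := [-56, -56, 0, 112, 1152, 0, -256, -64, -55]) q1054
(splC (h := [0, 0, 0, 0, -64, 0, 0, 0, 23]) q1055
(splC (h := [0, 0, 0, 0, 184, 0, -32, -1, 1]) (splC (h := [8, 8, 0, -48, -48, 0, 0, 40, 9]) (splC (h := [72, 72, 0, -144, -368, 288, 64, 74, 79, -9]) (splC (h := [72, 72, 0, -144, -400, 0, 32, 73, 80]) q1056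
q1057)
q1058)
q1059)
q1060)))))
(splC (h := [0, 0, 0, 16, -48, 0, 0, -16, 15]) q1061
(splC (h := [-72, -72, 0, 32, 112, 0, 0, 184, -73]) q1062
(splC (h := [-72, -72, 0, 104, 144, 0, -32, 183, -72]) q1063
(splC (h := [0, -24, -24, -792, -816, 48, 96, 563, 840, -24]) q1064
q1065)))))
q1066)
(splC (h := [0, 0, 0, 32, 96, 0, -32, -33]) q1067
q1068))))
(splC (h := [0, 0, 0, -64, 1, -63, 0, 64, -32, -1]) (splC (h := [0, 0, 0, 0, 16, 0, 0, 0, 0, -3]) (splC (h := [0, 0, 0, 16, 0, 0, 0, 0, 0, -3]) (splC (h := [0, 0, 0, 0, -1, 0, 0, 0, 1]) q1069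
(splC (h := [0, 0, 0, 1, -1, -2, 0, -1, 1, 2]) (splC (h := [0, 0, 0, -2, -2, 0, 0, 2, 1]) (splC (h := [0, 0, 0, 0, 32, -32, 0, 0, -16, -1]) (splC (h := [1, 0, 1, -2, -2, -7, 0, 1, 1, 1]) q1070
(splC (h := [0, 0, 0, 4, -1]) (splC (h := [-5, 0, -5, 15, 10, 10, 20, -5, -4, -5]) (splC (h := [-256, 0, -256, 768, 1696, 512, -160, -293, -1152, -256]) (splC (h := [45, 0, 45, -135, -90, -90, 5, 45, 73, 45]) q1071
(splC (h := [5, 0, 5, -10, -15, -10, 0, 5, 12, 5]) q1072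
q1073))
q1074)
q1075)
(splC (h := [0, 0, 0, 0, 16, 16, 0, 0, 15, -16]) (splC (h := [1, 0, 1, -3, -1, -1, -4, 1, 1]) q1076
q1077)
q1078)))
(splC (h := [0, 0, 0, 0, 0, 24, 0, 0, -11]) (splC (h := [0, 0, 0, 0, -48, 0, 0, 0, 77]) q1079
(splC (h := [0, 0, 0, 4, -3]) (splC (h := [32, 0, 32, -64, -64, -224, 0, 32, -33, 32]) (splC (h := [0, 0, 0, -64, -64, 0, 0, 64, -33]) q1080
(splC (h := [-32, -32, 0, -512, -512, 0, 0, 544, -43]) q1081
(splC (h := [64, 64, 0, -128, -32, -96, 0, 64, -32, -3]) (splC (h := [-7, 0, -7, 21, 14, 14, 28, -7, 4, -7]) (splC (h := [-1792, 0, -1792, 5376, 11872, -4704, 7168, -1792, -3712, -2051]) q1082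
q1083)
q1084)
q1085)))
q1086)
q1087))
q1088))
(splC (h := [0, 0, 0, -16, 16, -32, 0, 16, -16, -1]) q1089
(splC (h := [0, 0, 0, -16, 16, 0, -32, 15, -16]) q1090
q1091)))
(splC (h := [0, 0, 0, 0, 16, -16, -32, -1, -16, 16]) (splC (h := [0, 0, 0, 0, 16, 16, 0, 0, 15, -16]) (splC (h := [1, 0, 1, -3, -1, -1, -4, 1, 1]) q1092
(splC (h := [16, 0, 16, -48, 64, -32, -160, 13, -64, 16]) q1093
(splC (h := [0, 0, 0, 0, -96, -96, 0, 0, 53, 96]) (splC (h := [0, 0, 0, 2, -1]) q1094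
(splC (h := [0, 0, 0, 4, -1]) q1095
q1096))
(splC (h := [8, 0, 8, -16, -12, -4, -32, 7, 12, -4]) q1097
(splC (h := [5, 0, 5, -15, -195, -195, -20, 5, 152, 190]) q1098
(splC (h := [-2, 3, 1, 4, -2, 8, 0, -2, -1, 1]) (splC (h := [4, -37, -33, -8, 35, 46, 0, 4, 95, -33]) q1099
q1100)
q1101))))))
q1102)
(splC (h := [0, -72, -72, 0, 104, 112, 0, 0, 184, -73]) (splC (h := [0, 0, 0, 0, -32, 32, 0, 0, 32, 1]) q1103
q1104)
(splC (h := [0, 0, 0, 0, -96, -96, 0, 0, 53, 96]) q1105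
(splC (h := [0, 0, 0, 0, -24, 72, 0, 0, 13, -24]) q1106
(splC (h := [-256, 0, -256, 768, 1696, -672, 1024, -256, -1152, -293]) q1107
q1108)))))))
(splC (h := [-32, -32, 0, 64, -512, -576, 0, -32, -43, 576]) (splC (h := [0, 0, 0, 16, 16, 0, 0, -16, 15]) (splC (h := [-32, -32, 0, -512, -512, 0, 0, 544, -43]) (splC (h := [-32, 32, 64, 64, -64, -128, 0, -32, 35, 64]) (splC (h := [256, -32, 288, -512, -512, -2016, 0, 256, -43, 288]) q1109
(splC (h := [0, 0, 0, -16, 16, 0, -32, 15, -16]) (splC (h := [1, 0, 1, -2, -1, -2, -4, 0, 1, 1]) q1110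
(splC (h := [0, 0, 0, 0, 32, 0, -32, -1, -16]) q1111
q1112))
(splC (h := [0, 24, 24, 0, -212, -212, 0, 0, 188, 27]) (splC (h := [256, -32, 288, -800, -512, -576, -1152, 256, -43, 288]) q1113
(splC (h := [0, 0, 0, 32, 0, 176, -32, -33]) q1114
(splC (h := [0, -8, -8, 164, 16, 16, 0, 0, -8, -9]) (splC (h := [0, -56, -56, 0, 276, 440, 0, 0, -56, -63]) q1115
(splC (h := [0, 0, 0, 0, -416, -352, 96, 3, 256, -11]) (splC (h := [176, 0, 176, -352, 416, -1232, -96, 173, -256, 176]) (splC (h := [352, 352, 0, -2464, -160, 0, -288, 343, -64]) q1116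
(splC (h := [352, 352, 0, -704, 1728, 0, 928, 381, -1280]) q1117
(splC (h := [32, 320, -288, -288, -416, 576, 0, 32, 327, -288]) q1118
q1119)))
q1120)
q1121))
q1122)))
q1123)))
q1124)
(splC (h := [0, 0, 0, -16, 16, -32, 0, 16, -16, -1]) q1125
(splC (h := [0, 0, 0, 0, -1, -1, 0, 0, 32, -1]) (splC (h := [32, 0, 32, -96, 1, -127, -128, 32, -32, 31]) q1126
(splC (h := [-8, 0, -8, 24, 4, 16, -5, -8, 32, -8]) (splC (h := [0, 0, 0, 0, 16, 16, 0, 0, 15, -16]) (splC (h := [8, 0, 8, -24, 32, -16, 5, 8, -32, 8]) q1127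
q1128)
q1129)
q1130))
q1131)))
(splC (h := [32, 0, 32, -96, -64, -64, -128, 32, -33, 32]) q1132
(splC (h := [256, -32, 288, -800, -512, -576, -1152, 256, -43, 288]) (splC (h := [-32, -32, 0, 64, 64, 0, 0, -32, 161]) (splC (h := [-32, 32, 64, 64, -64, -128, 0, -32, 35, 64]) q1133
(splC (h := [0, 0, 0, 0, -24, 72, 0, 0, 13, -24]) q1134
q1135))
q1136)
(splC (h := [0, 0, 0, 0, 32, 0, -32, -1, -16]) q1137
(splC (h := [0, 0, 0, 0, 256, 0, -32, -1, -167]) q1138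
q1139)))))
(splC (h := [1, 0, 1, -2, -1, -2, -4, 0, 1, 1]) (splC (h := [-8, 0, -8, 24, 4, 16, -5, -8, 32, -8]) (splC (h := [-8, 0, -8, -24, -32, 16, 1, 40, 32, -8]) (splC (h := [-8, 0, -8, 24, -32, -32, -11, -8, 32, 40]) (splC (h := [8, 0, 8, -24, 32, -16, 5, 8, -32, 8]) (splC (h := [128, 0, 128, -384, 512, -256, -4, 125, -512, 128]) (splC (h := [16, 0, 16, -48, 64, -32, 10, 13, -64, 16]) q1140
q1141)
q1142)
(splC (h := [0, 0, 0, 16, 16, 0, 0, -16, 15]) (splC (h := [0, 0, 0, 1, -1, -2, 0, -1, 1, 2]) (splC (h := [0, 0, 0, -16, 16, 0, -32, 15, -16]) q1143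
(splC (h := [0, 1824, 1824, 0, -3648, -14144, -1312, -41, 1824, 2052]) (splC (h := [0, -8, -8, 164, 16, 16, 0, 0, -8, -9]) q1144
q1145)
q1146))
q1147)
q1148))
q1149)
q1150)
q1151)
(splC (h := [288, 288, 0, -576, -1504, 928, 0, 288, 1216, 29]) (splC (h := [0, 0, 0, 0, 128, -128, -32, -1, -128, 128]) (splC (h := [0, 0, 0, 0, 16, -16, -32, -1, -16, 16]) q1152
q1153)
q1154)
q1155))))
(splC (h := [0, 0, 0, -64, -64, 0, 0, 64, -33]) (splC (h := [0, 0, 0, 0, -64, -64, 0, 0, -33, 64]) (splC (h := [32, 0, 32, -64, -64, -224, 0, 32, -33, 32]) q1156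
(splC (h := [64, 0, 64, -128, -448, -128, 0, 64, -107, 64]) (splC (h := [64, 0, 64, -128, 1856, -128, 0, 64, -231, 64]) q1157
(splC (h := [48, -56, -8, -96, 112, 296, -224, 41, -56, -8]) q1158
q1159))
(splC (h := [160, -32, 192, -320, -1280, -384, 0, 160, -67, 192]) (splC (h := [-32, -32, 0, 64, 640, 0, 0, -32, -25]) (splC (h := [-32, 32, 64, 64, -64, -128, 0, -32, 35, 64]) (splC (h := [-32, -32, 0, 64, 64, 0, 0, -32, 161]) (splC (h := [-800, -1376, 576, 1600, 19456, -1152, 0, -800, -1201, 576]) q1160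
(splC (h := [0, 0, 0, 0, -3, 2]) (splC (h := [0, -32, -32, 0, 416, 64, 224, 7, -32, -32]) (splC (h := [7808, -9952, -2144, -15616, 74720, 4288, 15008, 8277, -9952, -2144]) q1161
q1162)
q1163)
q1164))
q1165)
q1166)
q1167)
(splC (h := [160, -32, 192, -320, -512, -384, -768, 136, -43, 192]) (splC (h := [-32, 32, 64, 64, -64, -128, 0, -32, 35, 64]) q1168
q1169)
(splC (h := [0, 0, 0, 0, -16, 0, 0, 0, 13]) (splC (h := [0, 0, 0, 0, 0, 8, 0, 0, -1]) (splC (h := [0, 0, 0, 8, 0, 0, 0, 0, -3]) q1170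
(splC (h := [256, -32, 288, -800, -512, -576, -1152, 256, -43, 288]) q1171
(splC (h := [0, 0, 0, 7, -8]) q1172
(splC (h := [0, 0, 0, 32, 176, 0, -32, -33]) q1173
q1174))))
q1175)
q1176)))))
q1177)
(splC (h := [32, 32, 0, -64, -64, 0, 0, 32, 25]) (splC (h := [-32, -32, 0, -512, -512, 0, 0, 544, -43]) q1178
(splC (h := [0, 0, 0, 0, -1, -1, 0, 0, 32, -1]) (splC (h := [64, 64, 0, -128, 92, 284, 0, 64, -32, -11]) q1179
q1180)
(splC (h := [0, 0, 0, 0, 96, 96, 0, 0, -53, -3]) q1181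
q1182)))
q1183)))
(splC (h := [0, 0, 0, 0, -16, 0, 0, 0, 13]) (splC (h := [0, 0, 0, 144, 104, 0, -32, -145, 112]) (splC (h := [0, 0, 0, 72, 32, 0, -32, -1, -32]) (splC (h := [0, 0, 0, 72, -40, -144, -32, -73, 40, 144]) q1184
q1185)
(splC (h := [0, 0, 0, 32, 176, 0, -32, -33]) (splC (h := [0, 0, 0, 16, 0, 0, 0, 0, 0, -3]) q1186
(splC (h := [0, 0, 0, -2, -1, 1, 0, 2, 1, -1]) (splC (h := [0, 0, 0, 32, 0, 176, -32, -33]) q1187
(splC (h := [176, 256, -80, -608, -512, 560, -320, 165, 256, -80]) (splC (h := [-88, -32, -56, 208, -464, 392, -224, -99, 496, -56]) (splC (h := [0, -1, 1, 1, 2, -7, 4, 0, -1, 1]) (splC (h := [-8, 0, -8, -32, 0, 56, -32, 39, 0, -8]) q1188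
q1189)
q1190)
q1191)
(splC (h := [128, 0, 128, -384, 512, -256, -4, 125, -512, 128]) (splC (h := [-8, 0, -8, 24, 4, 16, -5, -8, 32, -8]) (splC (h := [16, 0, 16, -48, 64, 64, 22, 16, -64, 13]) q1192
q1193)
q1194)
q1195)))
q1196))
q1197))
(splC (h := [0, 0, 0, 8, 0, 0, 0, 0, -3]) (splC (h := [0, 0, 0, 0, 0, 32, 0, 0, 0, -1]) q1198
(splC (h := [-32, -32, 0, 64, 640, 0, 0, -32, -25]) q1199
q1200))
(splC (h := [0, 0, 0, 0, -3, 2]) (splC (h := [-16, 16, 0, 32, -96, 0, 0, -16, 39]) q1201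
q1202)
q1203)))
(splC (h := [0, 0, 0, 144, 104, 0, -32, -145, 112]) (splC (h := [0, 0, 0, 72, -40, -144, -32, -73, 40, 144]) (splC (h := [0, 0, 0, 72, 32, 0, -32, -1, -32]) (splC (h := [0, 0, 0, 0, -32, 0, 32, 1, 32]) (splC (h := [0, 0, 0, -144, 80, 288, 64, 146, -80, -9]) (splC (h := [0, 0, 0, -1, 63, 64, 0, 1, -1, -2]) (splC (h := [96, 0, 96, -48, -112, -192, -32, -49, 112, 96]) (splC (h := [288, 0, 288, -144, -464, 576, 32, -143, 464, 252]) (splC (h := [288, 0, 288, -144, -1360, -576, -224, -151, 1360, 288]) q1204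
(splC (h := [16, 0, 16, -48, 64, -32, -160, 13, -64, 16]) q1205
(splC (h := [-8, 0, -8, 24, 4, 16, -5, -8, 32, -8]) (splC (h := [-8, 0, -8, -24, -32, 16, 1, 40, 32, -8]) (splC (h := [16, 0, 16, -48, 64, -32, 10, 13, -64, 16]) (splC (h := [-8, 0, -8, 24, -32, -32, -11, -8, 32, 40]) q1206
(splC (h := [0, -36, -36, -144, -40, 40, 0, 144, 76, -37]) q1207
q1208))
q1209)
q1210)
q1211)))
q1212)
q1213)
q1214)
q1215)
q1216)
(splC (h := [-484, -268, 216, 3708, 536, -432, -544, -501, -268, 216]) (splC (h := [56, 56, 0, -360, -112, 0, 32, 57, 56]) (splC (h := [8, 0, 8, -24, 32, -16, 5, 8, -32, 8]) (splC (h := [128, 0, 128, -384, 512, -256, -4, 125, -512, 128]) (splC (h := [16, 0, 16, -48, 64, 64, 22, 16, -64, 13]) (splC (h := [16, 0, 16, -48, 64, -32, 10, 13, -64, 16]) q1217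
(splC (h := [0, 0, 0, -16, 16, 0, -32, 15, -16]) q1218
(splC (h := [-16, -16, 0, 144, 32, 0, 32, -15, -16]) (splC (h := [-56, -56, 0, 360, -32, 0, -32, -57, 88]) (splC (h := [-205, -151, 54, 1467, 302, -108, 32, -204, -151, 54]) q1219
(splC (h := [64, 72, -8, -128, 112, 16, 32, 65, -184, -8]) (splC (h := [2072, 2360, -288, -4144, 3568, 576, 224, 2079, -5928, -288]) q1220
q1221)
q1222))
q1223)
q1224)))
q1225)
(splC (h := [-16, -16, 0, 144, 32, 0, 32, -15, -16]) (splC (h := [-205, -151, 54, 1467, 302, -108, 32, -204, -151, 54]) q1226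
(splC (h := [2072, 2360, -288, -4144, 3568, 576, 224, 2079, -5928, -288]) q1227
q1228))
q1229))
q1230)
(splC (h := [0, -1, 1, 0, 2, -2, 0, 0, -1, 1]) (splC (h := [-14080, -6016, -8064, 29920, -84768, 16128, -12320, -16225, 90784, -8064]) (splC (h := [8, 0, 8, -24, 32, -16, 5, 8, -32, 8]) (splC (h := [16, 0, 16, -48, 64, 64, 22, 16, -64, 13]) (splC (h := [16, 0, 16, -48, 64, -32, 10, 13, -64, 16]) q1231
q1232)
q1233)
q1234)
q1235)
q1236))
(splC (h := [0, 0, 0, 16, 16, 0, 0, 15, -16]) (splC (h := [0, 0, 0, -16, 16, 0, -32, 15, -16]) q1237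
(splC (h := [2072, 2360, -288, -4144, 3568, 576, 224, 2079, -5928, -288]) (splC (h := [448, 736, -288, -896, 320, 576, 224, 455, -1056, -288]) q1238
(splC (h := [8, 0, 8, -24, 32, -16, 5, 8, -32, 8]) q1239
q1240))
(splC (h := [128, 0, 128, -384, 512, -256, -4, 125, -512, 128]) q1241
q1242)))
q1243)))
(splC (h := [-2, 3, 1, 4, -2, 8, 0, -2, -1, 1]) (splC (h := [0, 0, 0, 32, 0, 176, -32, -33]) (splC (h := [0, 0, 0, 0, -1, 0, 0, 0, 1]) q1244
(splC (h := [0, -72, -72, 0, 104, 112, 0, 0, 184, -73]) (splC (h := [0, -36, -36, -144, -40, 40, 0, 144, 76, -37]) (splC (h := [96, 96, 0, -192, -160, -32, 0, 96, 64, -1]) (splC (h := [96, -48, 48, -288, -64, -128, 0, 96, 112, 47]) q1245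
(splC (h := [0, 0, 0, 0, -24, 72, 0, 0, 13, -24]) (splC (h := [32, 0, 32, -64, -48, -16, 0, 32, 37, -16]) q1246
(splC (h := [-8, 0, -8, 24, -32, -32, -11, -8, 32, 40]) q1247
q1248))
(splC (h := [96, -72, 24, -192, -112, -80, 0, 96, 184, 23]) q1249
q1250)))
(splC (h := [0, 0, 0, 0, -24, 72, 0, 0, 13, -24]) (splC (h := [32, 32, 0, -64, -64, 0, 0, 32, 21]) q1251
q1252)
q1253))
(splC (h := [0, 0, 0, -48, -24, 24, 0, 48, 13, -24]) (splC (h := [32, 0, 32, -64, -48, -16, 0, 32, 37, -16]) q1254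
q1255)
(splC (h := [0, 0, 0, 0, 16, -16, -32, -1, -16, 16]) q1256
q1257)))
(splC (h := [0, 0, 0, -48, -24, 24, 0, 48, 13, -24]) (splC (h := [32, 0, 32, -96, -32, -32, 0, 32, 21]) q1258
q1259)
q1260)))
(splC (h := [-8, 0, -8, 16, -32, -33, 0, -8, 32, 40]) (splC (h := [0, 0, 0, 2, 0, -1]) q1261
q1262)
q1263))
q1264))
(splC (h := [0, 0, 0, 0, -64, -64, 0, 0, 33, 64]) (splC (h := [0, 0, 0, 2, -1]) (splC (h := [0, 0, 0, -32, -32, 0, 0, 32, 25]) (splC (h := [1, 0, 1, -2, -3, -2, 0, 1, 2, 1]) q1265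
q1266)
(splC (h := [-24, -24, 0, 48, 16, 64, 0, -24, -3]) q1267
q1268))
q1269)
(splC (h := [0, 0, 0, 0, -24, 72, 0, 0, 13, -24]) (splC (h := [0, 0, 0, -48, -24, 24, 0, 48, 13, -24]) q1270
q1271)
q1272))))))

theorem core : Core (SyL (-1) 1) := coreOf (-1) 1 hA hB

end Vale.Agent.P235.C15
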